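import Vale.Agent.P236JW.Lane
import Vale.Agent.P236KE.Y

/-!
# P236JI / Rw : arrays of bytes represent systems of values
-/

namespace Vale.Agent.P236JW

open Vale.Agent.P236KE

/-- the middle part of a code -/
def mW (j : ℕ) (E : Q4) (g e : ℕ) : ℕ := j + 4 * E.2.1 + 13 * (E.2.2.1 + g) + 40 * (E.2.2.2 + e)

/-- the low part of a code -/
def loW (j : ℕ) (E : Q4) (g e : ℕ) : ℕ :=
  mW j E g e + 256 * (E.2.1 + 32 * E.2.2.1 + 512 * E.2.2.2 + 2048 * g + 32768 * e)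

/-- the high part of a code -/
def hiW (k : ℕ) (F : Q4) : ℕ := k + wt4 F + 256 * (F.2.1 + 32 * F.2.2.1 + 512 * F.2.2.2)

/-- the code of an array -/
def coW (k dw : ℕ) (E F : Q4) (g e : ℕ) : ℕ := loW (dw + wt4 F) E g e + 33554432 * hiW k F

/-- a column: its number, the exponents of the last two generators and the degree -/
structure Col : Type where
  i : ℕ
  c : ℕ
  d : ℕ
  D : ℕ

/-- the entry in the row of total degree `W` -/
def Col.ext (z : Col) (val : Q4 → ZMod 3) (g e W : ℕ) : ZMod 3 :=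
  if z.D ≤ W ∧ (W - z.D) % 4 ≠ 3 ∧ g ≤ z.c ∧ e ≤ z.d then
    val ((W - z.D) % 4, (W - z.D) / 4, z.c - g, z.d - e) else 0

/-- the array `x` with `n` columns has the entry `a` in the row of total degree `W` -/
def AtW (n T : ℕ) (z : Col) (x W : ℕ) (a : ZMod 3) : Prop := cl x (n * (T - W) + z.i) = a

/-- the arrays `Y E F g e` represent the values `val` in the column `z` -/
def RepA (n T : ℕ) (z : Col) (S : Q4 → Prop) (dw : ℕ) (Y : Q4 → Q4 → ℕ → ℕ → ℕ) (u : ℕ)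
    (val : Q4 → Q4 → Q4 → ZMod 3) : Prop :=
  ∀ E F g e W, S F → W ≤ T → W = dw + u + wt4 E + wt4 F + 13 * g + 40 * e → Bd (Y E F g e) 2 ∧
    AtW n T z (Y E F g e) W (z.ext (fun V => val V E F) g e W)

/-- the same for a family indexed by codes -/
def RepW (n T : ℕ) (z : Col) (S : Q4 → Prop) (k dw : ℕ) (X : ℕ → ℕ) (u : ℕ)
    (val : Q4 → Q4 → Q4 → ZMod 3) : Prop :=
  RepA n T z S dw (fun E F g e => X (coW k dw E F g e)) u val

variable {z : Col} {val val' : Q4 → ZMod 3} {g e W : ℕ}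

theorem Col.ext_of (V : Q4) (hV : V.1 < 3) (hc : z.c = V.2.2.1 + g) (hd : z.d = V.2.2.2 + e)
    (hW : W = z.D + V.1 + 4 * V.2.1) : z.ext val g e W = val V := by
  rw [Col.ext, if_pos (by omega)]
  exact congrArg val (Prod.ext (by simp only; omega) (Prod.ext (by simp only; omega)
    (Prod.ext (by simp only; omega) (by simp only; omega))))

theorem Col.ext_cases (z : Col) (g e W : ℕ) : (∃ V : Q4, V.1 < 3 ∧ z.c = V.2.2.1 + g ∧
    z.d = V.2.2.2 + e ∧ W = z.D + V.1 + 4 * V.2.1) ∨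
      (¬ (z.D ≤ W ∧ (W - z.D) % 4 ≠ 3 ∧ g ≤ z.c ∧ e ≤ z.d) ∧ ∀ val, z.ext val g e W = 0) := by
  by_cases h : z.D ≤ W ∧ (W - z.D) % 4 ≠ 3 ∧ g ≤ z.c ∧ e ≤ z.d
  · exact Or.inl ⟨((W - z.D) % 4, (W - z.D) / 4, z.c - g, z.d - e), by simp only; omega,
      by simp only; omega, by simp only; omega, by simp only; omega⟩
  · exact Or.inr ⟨h, fun _ => if_neg h⟩

theorem Col.ext_congr (h : ∀ V : Q4, V.1 < 3 → z.c = V.2.2.1 + g → z.d = V.2.2.2 + e →
    W = z.D + V.1 + 4 * V.2.1 → val V = val' V) : z.ext val g e W = z.ext val' g e W := by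
  rcases z.ext_cases g e W with ⟨V, h1, h2, h3, h4⟩ | ⟨-, h1⟩
  · rw [Col.ext_of V h1 h2 h3 h4, Col.ext_of V h1 h2 h3 h4, h V h1 h2 h3 h4]
  · rw [h1, h1]

theorem Col.ext_add (z : Col) (val val' : Q4 → ZMod 3) (g e W : ℕ) :
    z.ext (fun V => val V + val' V) g e W = z.ext val g e W + z.ext val' g e W := by
  simp only [Col.ext]
  split_ifs
  · rfl
  · rw [add_zero]

theorem Col.ext_mul (z : Col) (a : ZMod 3) (val : Q4 → ZMod 3) (g e W : ℕ) :
    z.ext (fun V => a * val V) g e W = a * z.ext val g e W := by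
  simp only [Col.ext]
  split_ifs
  · rfl
  · rw [mul_zero]

theorem Col.ext_zero (z : Col) (g e W : ℕ) : z.ext (fun _ => 0) g e W = 0 := ite_self _

variable {k dw j : ℕ} {E F : Q4}

theorem loW_lt (h : j + wt4 E + 13 * g + 40 * e ≤ 100) : loW j E g e < 33554432 := by
  simp only [loW, mW, wt4] at h ⊢
  omega

/-- the fields of the low part -/
theorem loW_dec (h : j + wt4 E + 13 * g + 40 * e ≤ 100) : loW j E g e % 256 = mW j E g e ∧
    loW j E g e / 256 % 32 = E.2.1 ∧ loW j E g e / 8192 % 16 = E.2.2.1 ∧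
    loW j E g e / 131072 % 4 = E.2.2.2 ∧ loW j E g e / 524288 % 16 = g ∧
    loW j E g e / 8388608 = e := by
  have h1 : mW j E g e ≤ 100 := by simp only [mW, wt4] at h ⊢; omega
  have h2 : E.2.1 < 32 ∧ E.2.2.1 < 16 ∧ E.2.2.2 < 4 ∧ g < 16 := by rw [wt4] at h; omega
  rw [loW]
  clear h
  generalize mW j E g e = m at h1 ⊢
  refine ⟨?_, ?_, ?_, ?_, ?_, ?_⟩ <;> omega

/-- the fields of the high part -/
theorem hiW_dec (h : k + wt4 F ≤ 100) : hiW k F % 256 = k + wt4 F ∧ hiW k F / 256 % 32 = F.2.1 ∧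
    hiW k F / 8192 % 16 = F.2.2.1 ∧ hiW k F / 131072 = F.2.2.2 := by
  have h1 : F.2.1 < 32 ∧ F.2.2.1 < 16 := by rw [wt4] at h; omega
  rw [hiW]
  generalize k + wt4 F = m at h ⊢
  refine ⟨?_, ?_, ?_, ?_⟩ <;> omega

theorem coW_dec (h : dw + wt4 F + wt4 E + 13 * g + 40 * e ≤ 100) :
    coW k dw E F g e % 33554432 = loW (dw + wt4 F) E g e ∧
      coW k dw E F g e / 33554432 = hiW k F ∧ coW k dw E F g e % 256 = mW (dw + wt4 F) E g e := by
  have h1 := loW_lt h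
  have h2 := (loW_dec h).1
  rw [coW]
  omega

theorem coW_zero (dw : ℕ) (E : Q4) (g e : ℕ) : coW 0 dw E 0 g e = loW dw E g e := rfl

end Vale.Agent.P236JW
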