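import Vale.Agent.P236JI.Rep

/-!
# P236JI / Tab : the meaning of the two tables
-/

noncomputable section

namespace Vale.Agent.P236JK.Ini

open MvPolynomial Vale.Agent.P236K3 Vale.Agent.P236KE

/-- generators and monomials of the entries -/
def ky : ML → List (ℕ × Q4)
  | .nil => []
  | .cons w a b c d _ _ l => (w, a, b, c, d) :: ky l

/-- a property of all entries -/
def AllE (R : ℕ → Q4 → P → Prop) : ML → Prop
  | .nil => True
  | .cons w a b c d x y l => R w (a, b, c, d) ⟨x, y⟩ ∧ AllE R l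

/-- the list `l` describes the polynomials `y` of total degree `j` by the digits at the place `o` -/
structure Ent (l : ML) (dm j o : ℕ) {n1 : ℕ} (y : Fin n1 → A) : Prop where
  nd : (ky l).Nodup
  val : AllE (fun w1 U x => ∃ h : w1 < n1, U.1 < 3 ∧ byte dm w1 + wt4 U = j ∧
    coeff (m4 U) (y ⟨w1, h⟩) = (P236JY.tr x o : K)) l
  all : ∀ (w1 : Fin n1) m, coeff m (y w1) ≠ 0 → m 0 < 3 → ∃ U, (w1.1, U) ∈ ky l ∧ m = m4 U

/-- the table of the lower functionals -/
def TabA (lo : MLL) (rk dlo dm T : ℕ) {n n1 : ℕ} (y : Fin n → Fin n1 → (ℕ →₀ ℕ) → A) : Prop :=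
  ∀ (w : Fin n) (F : Q4), byte dlo w + wt4 F ≤ T →
    Ent (MLL.get lo (byte dlo w + wt4 F)) dm (byte dlo w + wt4 F) (n * byte rk (ff F) + w)
      fun w1 => y w w1 (m4 F)

/-- the table of the upper functionals -/
def TabT (up : DTL) (bb dm dup T : ℕ) {n1 n2 : ℕ} (y : Fin n1 → Fin n2 → (ℕ →₀ ℕ) → A) : Prop :=
  ∀ (w1 : Fin n1) (b : Fin n2) (V E : Q4), V.1 < 3 → wt4 V + byte dup b ≤ T →
    wt4 V + byte dup b = byte dm w1 + wt4 E → E.2.1 < bb → coeff (m4 V) (y w1 b (m4 E)) =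
      (P236JY.tr (pairAt (DTr.get (DTL.get up w1) (E.2.2.1 + 16 * E.2.2.2 + 64 * vv V)) V.2.1)
        (b * bb + E.2.1) : K)

end Vale.Agent.P236JK.Ini

end
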