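import Vale.Agent.P236JK.Eng
import Vale.Agent.P236KE.Dig
import Mathlib.Combinatorics.Colex

/-!
# P236JI / Bit : products without carries
-/

namespace Vale.Agent.P236JK.Ini

open Vale.Agent.P236K3 Vale.Agent.P236KE

theorem bit_sum (s : Finset ℕ) (k : ℕ) : (∑ i ∈ s, 2 ^ i).testBit k = true ↔ k ∈ s := by
  rw [← Nat.mem_bitIndices, ← List.mem_toFinset, Finset.toFinset_bitIndices_sum_two_pow]

/-- **Products without carries.** -/
theorem bit_mul {X Y : ℕ} (h : ∀ i j i' j', X.testBit i = true → Y.testBit j = true →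
    X.testBit i' = true → Y.testBit j' = true → i + j = i' + j' → i = i') (k : ℕ) :
    (X * Y).testBit k = true ↔ ∃ i j, X.testBit i = true ∧ Y.testBit j = true ∧ i + j = k := by
  have h1 : X * Y = ∑ k ∈ (X.bitIndices.toFinset ×ˢ Y.bitIndices.toFinset).image
      (fun a => a.1 + a.2), 2 ^ k := by
    rw [Finset.sum_image, Finset.sum_product]
    · simp only [pow_add, ← Finset.mul_sum, ← Finset.sum_mul,
        Finset.sum_toFinset_bitIndices_two_pow]
    · intro a ha b hb e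
      simp only [Finset.coe_product, Set.mem_prod, Finset.mem_coe, List.mem_toFinset,
        Nat.mem_bitIndices] at ha hb
      have h2 := h _ _ _ _ ha.1 ha.2 hb.1 hb.2 e
      exact Prod.ext h2 (by beta_reduce at e; omega)
  rw [h1, bit_sum]
  simp only [Finset.mem_image, Finset.mem_product, List.mem_toFinset, Nat.mem_bitIndices,
    Prod.exists, and_assoc]

theorem bit_repD {s : ℕ} (hs : 0 < s) (m i : ℕ) :
    (repD s m).testBit i = true ↔ s ∣ i ∧ i < s * 2 ^ m := by
  induction m generalizing i with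
  | zero =>
    change (1 : ℕ).testBit i = true ↔ _
    rw [Nat.testBit_one_eq_true_iff_self_eq_zero, pow_zero, mul_one]
    exact ⟨fun h => h ▸ ⟨dvd_zero _, hs⟩, fun h => Nat.eq_zero_of_dvd_of_lt h.1 h.2⟩
  | succ m ih =>
    have h1 : repD s m < 2 ^ (s * 2 ^ m) :=
      Nat.lt_pow_two_of_testBit _ fun j hj => by
        rw [← Bool.not_eq_true, ih]
        omega
    have h : repD s (m + 1) = 2 ^ (s * 2 ^ m) * repD s m + repD s m := by
      change repD s m + repD s m <<< (s <<< m) = _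
      rw [Nat.shiftLeft_eq, Nat.shiftLeft_eq, add_comm, mul_comm]
    rw [h, Nat.testBit_two_pow_mul_add _ h1, pow_succ, ← mul_assoc]
    split_ifs with h2
    · rw [ih]
      exact and_congr_right fun _ => by omega
    · rw [ih, Nat.dvd_add_iff_left (dvd_mul_right s (2 ^ m)), Nat.sub_add_cancel (not_lt.1 h2)]
      exact and_congr_right fun _ => by omega

theorem bit_repN {s : ℕ} (hs : 0 < s) (n i : ℕ) :
    (repN s n).testBit i = true ↔ ∃ k < n, i = s * k := by
  have h : repN s n = repD s (n.log2 + 1) >>> (s * (2 ^ (n.log2 + 1) - n)) := by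
    change repD s (n.log2 + 1) >>> (s * (1 <<< (n.log2 + 1) - n)) = _
    rw [Nat.one_shiftLeft]
  obtain ⟨e, he⟩ := Nat.exists_eq_add_of_le (Nat.lt_log2_self (n := n)).le
  rw [h, Nat.testBit_shiftRight, bit_repD hs, he, Nat.add_sub_cancel_left, mul_add,
    ← Nat.dvd_add_iff_right (dvd_mul_right s e)]
  constructor
  · rintro ⟨⟨k, rfl⟩, h1⟩
    exact ⟨k, Nat.lt_of_mul_lt_mul_left (a := s) (by omega), rfl⟩
  · rintro ⟨k, hk, rfl⟩
    have := Nat.mul_lt_mul_of_pos_left hk hs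
    exact ⟨dvd_mul_right _ _, by omega⟩

theorem bit_ones (n i : ℕ) : (ones n).testBit i = true ↔ i < n := by
  change (1 <<< n - 1).testBit i = true ↔ _
  rw [Nat.one_shiftLeft, Nat.testBit_two_pow_sub_one, decide_eq_true_iff]

theorem mix {a x y r s : ℕ} (hr : r < a) (hs : s < a) (h : a * x + r = a * y + s) :
    x = y ∧ r = s := by
  have h1 := congrArg (· / a) h
  have h2 := congrArg (· % a) h
  simp only [Nat.mul_add_div (show 0 < a by omega), Nat.mul_add_mod, Nat.div_eq_of_lt hr,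
    Nat.div_eq_of_lt hs, Nat.mod_eq_of_lt hr, Nat.mod_eq_of_lt hs, add_zero] at h1 h2
  exact ⟨h1, h2⟩

/-- a small number, repeated -/
theorem bit_mul_repN {s x : ℕ} (hs : 0 < s) (hx : ∀ i, x.testBit i = true → i < s) (n i : ℕ) :
    (x * repN s n).testBit i = true ↔ ∃ k < n, ∃ r, x.testBit r = true ∧ i = s * k + r := by
  rw [bit_mul]
  · simp only [bit_repN hs]
    exact ⟨fun ⟨r, _, h1, ⟨k, hk, e⟩, h2⟩ => ⟨k, hk, r, h1, by omega⟩,
      fun ⟨k, hk, r, h1, h2⟩ => ⟨r, _, h1, ⟨k, hk, rfl⟩, by omega⟩⟩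
  · simp only [bit_repN hs]
    rintro i _ i' _ h1 ⟨k, -, rfl⟩ h2 ⟨k', -, rfl⟩ e
    exact (mix (hx i h1) (hx i' h2) (by omega : s * k + i = s * k' + i')).2

variable {p : Pm}

theorem blk_eq (p : Pm) : blk p = mb p * p.nw := Nat.mul_comm _ _

theorem inner_lt {w r : ℕ} (hw : w < p.nw) (hr : r < mb p) : mb p * w + r < blk p := by
  have := Nat.mul_le_mul_left (mb p) hw
  rw [blk_eq]
  rw [Nat.mul_succ] at this
  omega

theorem bit_repW (h : 0 < mb p) (i : ℕ) : (repW p).testBit i = true ↔ ∃ w < p.nw, i = mb p * w :=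
  bit_repN h _ _

theorem bit_repM (h0 : 0 < p.nw) (h : 0 < mb p) (i : ℕ) : (repM p).testBit i = true ↔
    ∃ B ≤ top p 0, ∃ r < mb p, i = blk p * B + r := by
  have h1 : ∀ r < mb p, r < blk p := fun r hr => by simpa using inner_lt h0 hr
  change (ones (mb p) * repN (blk p) (top p 0 + 1)).testBit i = true ↔ _
  rw [bit_mul_repN (h1 0 h) fun r hr => h1 r ((bit_ones _ _).1 hr)]
  simp only [bit_ones, Nat.lt_succ_iff]

/-- the product of a number with bits at the starts of the inner blocks and a number with bits in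
the first inner blocks -/
theorem bit_grid {X Y : ℕ} (hX : ∀ i, X.testBit i = true → ∃ B, ∃ r < mb p, i = blk p * B + r)
    (hY : ∀ i, Y.testBit i = true → ∃ w < p.nw, i = mb p * w) :
    (∀ i, (X * Y).testBit i = true → ∃ B, ∃ w < p.nw, ∃ r < mb p, i = blk p * B + (mb p * w + r) ∧
      X.testBit (blk p * B + r) = true) ∧ ∀ B, ∀ w < p.nw, ∀ r < mb p,
      (X * Y).testBit (blk p * B + (mb p * w + r)) =
        (X.testBit (blk p * B + r) && Y.testBit (mb p * w)) := by
  have key := bit_mul (X := X) (Y := Y) fun i j i' j' h1 h2 h3 h4 e => by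
    obtain ⟨B, r, hr, rfl⟩ := hX i h1
    obtain ⟨w, hw, rfl⟩ := hY j h2
    obtain ⟨B', r', hr', rfl⟩ := hX i' h3
    obtain ⟨w', hw', rfl⟩ := hY j' h4
    obtain ⟨rfl, h5⟩ := mix (x := B) (y := B') (inner_lt hw hr) (inner_lt hw' hr') (by omega)
    rw [(mix hr hr' h5).2]
  refine ⟨fun i hi => ?_, fun B w hw r hr => ?_⟩
  · obtain ⟨a, b, h1, h2, rfl⟩ := (key i).1 hi
    obtain ⟨B, r, hr, rfl⟩ := hX a h1
    obtain ⟨w, hw, rfl⟩ := hY b h2
    exact ⟨B, w, hw, r, hr, by omega, h1⟩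
  · rw [Bool.eq_iff_iff, key, Bool.and_eq_true]
    refine ⟨fun ⟨a, b, h1, h2, e⟩ => ?_, fun h => ⟨_, _, h.1, h.2, by omega⟩⟩
    obtain ⟨B', r', hr', rfl⟩ := hX a h1
    obtain ⟨w', hw', rfl⟩ := hY b h2
    obtain ⟨rfl, h5⟩ := mix (x := B') (y := B) (inner_lt hw' hr') (inner_lt hw hr) (by omega)
    obtain ⟨rfl, rfl⟩ := mix hr' hr h5
    exact ⟨h1, h2⟩

/-- repetition of the first inner blocks -/
theorem bit_rep (h0 : 0 < p.nw) (h : 0 < mb p) (x : ℕ) {B w r : ℕ} (hB : B ≤ top p 0)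
    (hw : w < p.nw) (hr : r < mb p) :
    ((x &&& repM p) * repW p).testBit (blk p * B + (mb p * w + r)) = x.testBit (blk p * B + r) := by
  rw [(bit_grid (fun i hi => ?_) fun i => (bit_repW h i).1).2 B w hw r hr, Nat.testBit_and,
    (bit_repM h0 h _).2 ⟨B, hB, r, hr, rfl⟩, (bit_repW h _).2 ⟨w, hw, rfl⟩, Bool.and_true,
    Bool.and_true]
  rw [Nat.testBit_and, Bool.and_eq_true, bit_repM h0 h] at hi
  exact hi.2.imp fun _ h => h.2

/-- spreading of the bits of a small number -/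
theorem bit_fil (h : p.nw < mb p) {x : ℕ} (hx : ∀ i, x.testBit i = true → i < p.nw) {B w r : ℕ}
    (hB : B ≤ top p 0) (hw : w < p.nw) (hr : r < mb p) :
    (fil p x).testBit (blk p * B + (mb p * w + r)) = x.testBit w := by
  have h0 : 0 < mb p := by omega
  change (((x * spW p) &&& repW p) * repM p).testBit _ = _
  rw [mul_comm, (bit_grid (fun i hi => ((bit_repM (by omega) h0 i).1 hi).imp fun _ h => h.2)
    fun i hi => ?_).2 B w hw r hr, (bit_repM (by omega) h0 _).2 ⟨B, hB, r, hr, rfl⟩,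
    Bool.true_and, Nat.testBit_and, (bit_repW h0 _).2 ⟨w, hw, rfl⟩, Bool.and_true,
    Bool.eq_iff_iff]
  · obtain ⟨m, hm⟩ : ∃ m, mb p = m + 1 := ⟨mb p - 1, by omega⟩
    change (x * repN (mb p - 1) p.nw).testBit _ = true ↔ _
    rw [hm, Nat.add_sub_cancel, bit_mul_repN (by omega) fun i hi => by have := hx i hi; omega]
    refine ⟨fun ⟨k, _, r', h1, e⟩ => ?_, fun h1 => ⟨w, hw, w, h1, by ring⟩⟩
    have h2 := hx r' h1
    rwa [(mix (a := m) (x := w) (y := k) (r := w) (s := r') (by omega) (by omega)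
      (by rw [← e]; ring)).2]
  · rw [Nat.testBit_and, Bool.and_eq_true] at hi
    exact (bit_repW h0 i).1 hi.2

theorem bit_bits (p : Pm) (x o i : ℕ) :
    (bits p x o).testBit i = (x.testBit (o + i) && decide (i < p.nw)) := by
  change ((x >>> o) &&& ones p.nw).testBit i = _
  rw [Nat.testBit_and, Nat.testBit_shiftRight]
  congr 1
  rw [Bool.eq_iff_iff, bit_ones, decide_eq_true_iff]

end Vale.Agent.P236JK.Ini
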