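import Vale.Agent.P236JI.Sp
import Vale.Agent.P236JW.Gd
import Vale.Agent.P236JW.Eng3

/-!
# P236JI / In2 : sums over lists of arrays
-/

noncomputable section

namespace Vale.Agent.P236JW

open Vale.Agent.P236KE
open Vale.Agent.P236JK (ones ite')

variable {a : Bs} {x y B C e : ℕ}

/-- the array has digits at most `B`, vanishes outside and has the classes `v` -/
structure Ar (a : Bs) (x B : ℕ) (v : ℕ → ZMod 3) : Prop where
  bd : Bd x B
  zs : Gz a x
  cl : ∀ i, cl x i = v i

variable {v v' : ℕ → ZMod 3}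

theorem ar_zero (B : ℕ) : Ar a 0 B 0 := ⟨bd_zero B, gz_zero a, cl_zero⟩

theorem Ar.mono (h : Ar a x B v) (hB : B ≤ C) : Ar a x C v := ⟨h.bd.mono hB, h.zs, h.cl⟩

theorem Ar.add (h : Ar a x B v) (h' : Ar a y C v') (hB : B + C < 256) :
    Ar a (Nat.add x y) (B + C) (v + v') :=
  ⟨h.bd.add h'.bd hB, h.zs.add h'.zs h.bd h'.bd hB, fun i =>
    (h.bd.cl_add h'.bd hB i).trans (by rw [h.cl, h'.cl]; rfl)⟩

theorem Ar.dbl (h : Ar a x B v) (hB : 2 * B < 256) : Ar a (Nat.shiftLeft x 1) (2 * B) (-v) :=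
  ⟨h.bd.dbl hB, h.zs.dbl h.bd hB, fun i => (h.bd.cl_dbl hB i).trans (by rw [h.cl]; rfl)⟩

theorem Ar.ex5 (hn : 0 < a.n) (h : Ar a x 23 v) : Ar a (ex5 a x) 2 v := by
  have h1 := dg_ex5' hn h.bd h.zs
  refine ⟨fun i => by rw [h1]; omega, fun r i hi ho => by rw [h1, h.zs r i hi ho], fun i => ?_⟩
  rw [← h.cl, P236JW.cl, h1]
  exact cast_eq (by omega)

theorem Ar.rd (hn : 0 < a.n) (h : Ar a x B v) (h' : Rd a (On a 7) x y) : Ar a y 2 v :=
  ⟨h'.bd hn, fun r i hi ho => (h' r i hi).trans (if_neg ho), lanes hn fun r i hi => by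
    rw [h'.cl r hi, ← h.cl]
    split_ifs with ho
    · rfl
    · rw [P236JW.cl, h.zs r i hi ho, Nat.cast_zero]⟩

/-- all members of the list are reduced at the code `e` -/
def Gl (a : Bs) (e : ℕ) : FL → Prop
  | .nil => True
  | .cons f l => Gd a (f e) ∧ Gl a e l

/-- the sum of the classes -/
def sv (e : ℕ) : FL → ℕ → ZMod 3
  | .nil => 0
  | .cons f l => sv e l + cl (f e)

theorem ar_sumL : ∀ {l : FL}, Gl a e l → l.len ≤ 127 → Ar a (sumL l e) (2 * l.len) (sv e l)
  | .nil, _, _ => ar_zero _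
  | .cons _ l, h, h' => by
    change l.len + 1 ≤ 127 at h'
    exact (ar_sumL h.2 (by omega)).add ⟨h.1.1, h.1.2, fun _ => rfl⟩ (by omega)

theorem ar_sumS (hn : 0 < a.n) : ∀ {l : FL}, Gl a e l → Ar a (sumS a l e) 2 (sv e l)
  | .nil, _ => ar_zero _
  | .cons _ _, h =>
    (((ar_sumS hn h.2).add ⟨h.1.1, h.1.2, fun _ => rfl⟩ (by omega)).mono (by omega)).ex5 hn

theorem sv_of_len : ∀ {l : FL}, l.len = 0 → sv e l = 0
  | .nil, _ => rfl
  | .cons _ _, h => absurd h (Nat.succ_ne_zero _)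

theorem ar_sm2 {l l' : FL} (h : Gl a e l) (h' : Gl a e l') (hk : l.len + 2 * l'.len ≤ 127) :
    Ar a (sm2 l l' e) (2 * (l.len + 2 * l'.len)) (sv e l + -sv e l') :=
  ((ar_sumL h (by omega)).add ((ar_sumL h' (by omega)).dbl (by omega)) (by omega)).mono (by omega)

theorem ite_ind {α : Type} {Q : α → Prop} {c : Bool} {x y : α} (h : c = true → Q x)
    (h' : c = false → Q y) : Q (ite' c x y) := by
  cases c
  exacts [h' rfl, h rfl]

theorem ar_gF3 (hn : 0 < a.n) {l l' : FL} (h : Gl a e l) (h' : Gl a e l') :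
    Ar a ((gF3 a l l').f e) 2 (sv e l + -sv e l') := by
  have H := @ite_ind Fm fun X => Ar a (X.f e) 2 (sv e l + -sv e l')
  change Ar a ((gF4 a l l' (l.len + 2 * l'.len)).f e) _ _
  rw [gF4]
  refine H (fun h1 => H (fun h2 => ?_) fun _ => ?_) fun _ =>
    H (fun h2 => ?_) fun _ => H (fun h3 => ?_) fun _ => ?_
  · have h3 : l.len + 2 * l'.len = 0 := Nat.eq_of_beq_eq_true h2
    rw [sv_of_len (by omega), sv_of_len (by omega), neg_zero, add_zero]
    exact ar_zero 2
  · have h3 : l.len + 2 * l'.len ≤ 11 := Nat.le_of_ble_eq_true h1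
    exact ((ar_sm2 h h' (by omega)).mono (by omega)).ex5 hn
  · have h3 : l.len + 2 * l'.len ≤ 71 := Nat.le_of_ble_eq_true h2
    have h4 := ar_sm2 h h' (by omega)
    exact h4.rd hn (rd_redF hn (h4.bd.mono (by omega)))
  · exact (ar_sm2 h h' (Nat.le_of_ble_eq_true h3)).rd hn (rd_redG hn _)
  · exact (((ar_sumS hn h).add ((ar_sumS hn h').dbl (by omega)) (by omega)).mono (by omega)).ex5 hn

theorem low_bit (m : ℕ) : ∃ t, ((m + 1) ^^^ m).log2 = t ∧ (m + 1).testBit t = true ∧
    (∀ i < t, (m + 1).testBit i = false) ∧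
      ∀ i, ((m + 1) &&& m).testBit i = ((m + 1).testBit i && !decide (i = t)) := by
  obtain ⟨t, k, ⟨k, rfl⟩, h⟩ := Nat.exists_eq_two_pow_mul_odd (Nat.succ_ne_zero m)
  have h0 : 0 < 2 ^ t := by positivity
  have h1 : ∀ i, (m + 1).testBit i = if i < t then false else (2 * k + 1).testBit (i - t) :=
    fun i => by
      rw [show m + 1 = 2 ^ t * (2 * k + 1) + 0 from h, Nat.testBit_two_pow_mul_add _ h0,
        Nat.zero_testBit]
  have h2 : ∀ i, m.testBit i = if i < t then true else (2 * k).testBit (i - t) := fun i => by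
    rw [show m = 2 ^ t * (2 * k) + (2 ^ t - 1) by rw [mul_add] at h; omega,
      Nat.testBit_two_pow_mul_add _ (by omega), Nat.testBit_two_pow_sub_one]
    split_ifs with h3
    exacts [decide_eq_true h3, rfl]
  have h3 : ∀ i, (2 * k).testBit (i + 1) = (2 * k + 1).testBit (i + 1) := fun i => by
    rw [Nat.testBit_succ, Nat.testBit_succ, show (2 * k + 1) / 2 = 2 * k / 2 by omega]
  have h4 : (2 * k + 1).testBit 0 = true := by simp
  have h5 : (2 * k).testBit 0 = false := by simp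
  have h6 : (m + 1) ^^^ m = 2 ^ (t + 1) - 1 := Nat.eq_of_testBit_eq fun i => by
    rw [Nat.testBit_xor, h1, h2, Nat.testBit_two_pow_sub_one]
    rcases lt_trichotomy i t with h7 | rfl | h7
    · simp [h7, Nat.lt_succ_of_lt h7]
    · simp
    · obtain ⟨d, rfl⟩ := Nat.exists_eq_add_of_lt h7
      rw [if_neg (by omega), if_neg (by omega), show t + d + 1 - t = d + 1 by omega, h3,
        decide_eq_false (by omega), Bool.xor_self]
  refine ⟨t, ?_, by rw [h1, if_neg (lt_irrefl t), Nat.sub_self, h4],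
    fun i hi => by rw [h1, if_pos hi], fun i => ?_⟩
  · rw [h6, Nat.log2_eq_iff (by rw [pow_succ]; omega), pow_succ]
    omega
  · rw [Nat.testBit_and, h1, h2]
    rcases lt_trichotomy i t with h7 | rfl | h7
    · simp [h7]
    · simp
    · obtain ⟨d, rfl⟩ := Nat.exists_eq_add_of_lt h7
      rw [if_neg (by omega), if_neg (by omega), show t + d + 1 - t = d + 1 by omega, h3,
        decide_eq_false (by omega), Bool.and_self, Bool.not_false, Bool.and_true]

theorem bl0_succ (j : ℕ) (z : FL) (o n m : ℕ) : bl0 a j z o (n + 1) (m + 1) =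
    .cons (tw a j (o + ((m + 1) ^^^ m).log2)).f (bl0 a j z o n ((m + 1) &&& m)) := by
  change force ((m + 1) ^^^ m) (bl2 a j o (bl0 a j z o n) (m + 1) m) = _
  rw [force_eq, bl2, twL, force_eq]
  rfl

theorem bl0_spec {j o : ℕ} {z : FL} (hz : Gl a e z) : ∀ n, ∀ y < 2 ^ 60,
    (∀ p, y.testBit p = true → Gd a ((tw a j (o + p)).f e)) →
    (∀ i, i + n < 60 → y.testBit i = false) → Gl a e (bl0 a j z o n y) ∧
      ∀ i, sv e (bl0 a j z o n y) i = sv e z i +
        ∑ p ∈ Finset.range 60, if y.testBit p then cl ((tw a j (o + p)).f e) i else 0 := by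
  intro n
  induction n with
  | zero =>
    intro y _ _ h
    exact ⟨hz, fun i => by
      rw [Finset.sum_eq_zero fun p hp => by
        rw [h p (Finset.mem_range.1 hp), if_neg Bool.false_ne_true], add_zero]
      rfl⟩
  | succ n ih =>
    intro y hy hg h
    rcases y with _ | m
    · exact ⟨hz, fun i => by rw [sum_zero_bits, add_zero]; rfl⟩
    · obtain ⟨t, h1, h2, h3, h4⟩ := low_bit m
      have h5 : t < 60 := by
        by_contra h5
        rw [Nat.testBit_lt_two_pow (hy.trans_le (Nat.pow_le_pow_right (by omega) (by omega)))] at h2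
        exact Bool.false_ne_true h2
      obtain ⟨h6, h7⟩ := ih ((m + 1) &&& m) (Nat.and_le_left.trans_lt hy)
        (fun p hp => hg p (by rw [h4, Bool.and_eq_true] at hp; exact hp.1)) fun i hi => by
          rw [h4]
          rcases lt_trichotomy i t with h7 | rfl | h7
          · rw [h3 i h7, Bool.false_and]
          · simp
          · rw [h t (by omega)] at h2
            exact absurd h2 Bool.false_ne_true
      rw [bl0_succ, h1]
      refine ⟨⟨hg t h2, h6⟩, fun i => ?_⟩
      change sv e (bl0 a j z o n _) i + cl ((tw a j (o + t)).f e) i = _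
      rw [h7, add_assoc, ← Finset.sum_erase_add _ _ (Finset.mem_range.2 h5),
        ← Finset.sum_erase_add _ _ (Finset.mem_range.2 h5), h4, if_pos h2, decide_eq_true rfl,
        Bool.not_true, Bool.and_false, if_neg Bool.false_ne_true, add_zero]
      congr 2
      refine Finset.sum_congr rfl fun p hp => ?_
      rw [h4, decide_eq_false (Finset.ne_of_mem_erase hp), Bool.not_false, Bool.and_true]

theorem blc_succ (j x n : ℕ) : blc a j x (n + 1) =
    bl0 a j (blc a j x n) (60 * n) 60 ((x >>> (60 * n)) &&& (2 ^ 60 - 1)) := by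
  change force (60 * n) (fun o => force ((x >>> o) &&& 1152921504606846975)
    (bl1 a j (blc a j x n) o)) = _
  rw [force_eq, force_eq, bl1]
  rfl

theorem blc_spec {j : ℕ} (h : ∀ p, x.testBit p = true → Gd a ((tw a j p).f e)) (n : ℕ) :
    Gl a e (blc a j x n) ∧ ∀ i, sv e (blc a j x n) i =
      ∑ p ∈ Finset.range (60 * n), if x.testBit p then cl ((tw a j p).f e) i else 0 := by
  induction n with
  | zero => exact ⟨trivial, fun _ => rfl⟩
  | succ n ih =>
    have h0 : ∀ p, ((x >>> (60 * n)) &&& (2 ^ 60 - 1)).testBit p =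
        (x.testBit (60 * n + p) && decide (p < 60)) := fun p => by
      rw [Nat.testBit_and, Nat.testBit_shiftRight, Nat.testBit_two_pow_sub_one]
    obtain ⟨h1, h2⟩ := bl0_spec (j := j) (o := 60 * n) ih.1 60 ((x >>> (60 * n)) &&& (2 ^ 60 - 1))
      (Nat.and_le_right.trans_lt (by norm_num))
      (fun p hp => h _ (by rw [h0, Bool.and_eq_true] at hp; exact hp.1)) fun i hi => by omega
    rw [blc_succ]
    refine ⟨h1, fun i => ?_⟩
    rw [h2, ih.2, Nat.mul_succ, Finset.sum_range_add]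
    refine congrArg _ (Finset.sum_congr rfl fun p hp => ?_)
    rw [h0, decide_eq_true (Finset.mem_range.1 hp), Bool.and_true]

theorem bl_spec {j : ℕ} (h : ∀ p < a.nn, Gd a ((tw a j p).f e)) (hx : x < 2 ^ a.nn) :
    Gl a e (bl a j x) ∧ ∀ i, sv e (bl a j x) i =
      ∑ p ∈ Finset.range a.nn, if x.testBit p then cl ((tw a j p).f e) i else 0 := by
  have h0 : ∀ p, a.nn ≤ p → x.testBit p = false := fun p hp =>
    Nat.testBit_lt_two_pow (hx.trans_le (Nat.pow_le_pow_right (by omega) hp))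
  obtain ⟨h1, h2⟩ := blc_spec (x := x) (fun p hp => h p (by
    by_contra h3
    rw [h0 p (by omega)] at hp
    exact Bool.false_ne_true hp)) (a.nn / 60 + 1)
  refine ⟨h1, fun i => (h2 i).trans (Finset.sum_subset (Finset.range_mono (by omega))
    fun p _ hp => ?_).symm⟩
  rw [h0 p (by simpa using hp), if_neg Bool.false_ne_true]

theorem bit_slc (a : Bs) (x f p : ℕ) :
    (slc a x f).testBit p = (x.testBit (a.nn * f + p) && decide (p < a.nn)) := by
  change ((x >>> (a.nn * f)) &&& (1 <<< a.nn - 1)).testBit p = _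
  rw [Nat.one_shiftLeft, Nat.testBit_and, Nat.testBit_shiftRight, Nat.testBit_two_pow_sub_one]

theorem slc_lt (a : Bs) (x f : ℕ) : slc a x f < 2 ^ a.nn :=
  Nat.lt_pow_two_of_testBit _ fun i hi => by
    rw [bit_slc, decide_eq_false (by omega), Bool.and_false]

/-- **the sum over the nonzero digits of a row** -/
theorem ar_gF1 (hn : 0 < a.n) {j : ℕ}
    (h : ∀ p < a.nn, Gd a ((tw a j p).f e)) (hd : DLL) (f m k : ℕ) :
    Ar a ((gF1 a hd j f m k).f e) 2 fun i => ∑ p ∈ Finset.range a.nn,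
      (P236JY.tr ⟨dN hd m k, dO hd m k⟩ (a.nn * f + p) : ZMod 3) * cl ((tw a j p).f e) i := by
  have h1 := slc_lt a (dN hd m k) f
  have h2 := slc_lt a (dO hd m k) f
  obtain ⟨k1, k2⟩ := bl_spec h h1
  obtain ⟨k3, k4⟩ := bl_spec h
    (Nat.xor_lt_two_pow h2 (Nat.and_lt_two_pow (slc a (dN hd m k) f) h2))
  have h3 := ar_gF3 hn k1 k3
  refine ⟨h3.bd, h3.zs, fun i => (h3.cl i).trans ?_⟩
  rw [Pi.add_apply, Pi.neg_apply, k2, k4, ← sub_eq_add_neg, ← Finset.sum_sub_distrib]
  refine Finset.sum_congr rfl fun p hp => ?_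
  rw [← tr_mul]
  simp only [P236JY.tr, bit_slc, decide_eq_true (Finset.mem_range.1 hp), Bool.and_true]

end Vale.Agent.P236JW

end
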