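import Vale.Agent.P236JI.In2

/-!
# P236JI / In3 : the initial arrays
-/

noncomputable section

namespace Vale.Agent.P236JW

open MvPolynomial Vale.Agent.P236KE Vale.Agent.P236JF
open Vale.Agent.P236K3 (K A)
open Vale.Agent.P236JK (ones ite')
open Vale.Agent.P236JK.Ini (ex0 ex0_eq)

/-- the tables of the places -/
structure Lay (a : Bs) (n1 : ℕ) (ps : ℕ → ℕ) : Prop where
  dec : ∀ p < a.nn, byte a.pw p < n1 ∧ ps (byte a.pw p) + byte a.pq p = p
  enc : ∀ w < n1, ∀ c d, byte a.dm w + 13 * c + 40 * d ≤ a.tt → ps w + (3 * c + d) < a.nn ∧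
    byte a.pw (ps w + (3 * c + d)) = w ∧ byte a.pq (ps w + (3 * c + d)) = 3 * c + d

/-- the table of a lower generator -/
def TabH (a : Bs) (l : Lw) (ps : ℕ → ℕ) {n1 : ℕ} (y : Fin n1 → (ℕ →₀ ℕ) → A) : Prop :=
  ∀ F : Q4, l.dw + wt4 F ≤ a.tt → (∀ (w : Fin n1) U, U.1 < 3 →
    byte a.dm w + wt4 U = l.dw + wt4 F → coeff (m4 U) (y w (m4 F)) =
      (P236JY.tr ⟨dN l.hd (F.2.2.1 + 7 * F.2.2.2) (F.1 + 4 * F.2.1),
        dO l.hd (F.2.2.1 + 7 * F.2.2.2) (F.1 + 4 * F.2.1)⟩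
        (a.nn * F.2.1 + (ps w + (3 * U.2.2.1 + U.2.2.2))) : K)) ∧
    ∀ (w : Fin n1) m, coeff m (y w (m4 F)) ≠ 0 → ∃ U, m = m4 U ∧ byte a.dm w + wt4 U = l.dw + wt4 F

variable {a : Bs} {z : Col} {l : Lw} {j p n1 : ℕ}

/-- the degree without the first two exponents -/
def dgP (a : Bs) (p : ℕ) : ℕ :=
  byte a.dm (byte a.pw p) + (13 * (byte a.pq p / 3) + 40 * (byte a.pq p % 3))

/-- the place is in use -/
def okP (a : Bs) (j p : ℕ) : Bool := Nat.ble (dgP a p) j && !Nat.beq ((j - dgP a p) % 4) 3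

/-- generator and monomial of a place -/
def decP (a : Bs) (j p : ℕ) : ℕ × Q4 :=
  (byte a.pw p, (j - dgP a p) % 4, (j - dgP a p) / 4, byte a.pq p / 3, byte a.pq p % 3)

theorem okP_iff : okP a j p = true ↔ dgP a p ≤ j ∧ (j - dgP a p) % 4 ≠ 3 := by
  rw [okP, Bool.and_eq_true, Nat.ble_eq, Bool.not_eq_true', ← Bool.not_eq_true, Nat.beq_eq]

theorem tw_eq (a : Bs) (j p : ℕ) : tw a j p = if okP a j p = true then
    tw3 a (byte a.pw p) (byte a.pq p % 3) (byte a.pq p / 3) ((j - dgP a p) % 4) ((j - dgP a p) / 4)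
      else zF := by
  change ite' (Nat.ble (dgP a p) j) (ite' (Nat.beq ((j - dgP a p) &&& (2 ^ 2 - 1)) 3) zF
    (tw3 a (byte a.pw p) (byte a.pq p % 3) (byte a.pq p / 3) ((j - dgP a p) &&& (2 ^ 2 - 1))
      ((j - dgP a p) >>> 2))) zF = _
  rw [okP, Nat.and_two_pow_sub_one_eq_mod, Nat.shiftRight_eq_div_pow]
  cases Nat.ble (dgP a p) j <;> cases Nat.beq ((j - dgP a p) % 2 ^ 2) 3 <;> rfl

/-- the twisted upper functionals are reduced -/
def Tw1 (a : Bs) (n1 : ℕ) : Prop :=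
  ∀ w < n1, ∀ d c u b, u < 3 → ∀ s, Gd a ((tw3 a w d c u b).f s)

theorem gd_tw {ps : ℕ → ℕ} (hL : Lay a n1 ps) (h : Tw1 a n1) (j s : ℕ) :
    ∀ p < a.nn, Gd a ((tw a j p).f s) := fun p hp => by
  rw [tw_eq]
  split_ifs with ho
  · rw [okP_iff] at ho
    exact h _ (hL.dec p hp).1 _ _ _ _ (by omega) _
  · exact gd_zero a

theorem init_def (a : Bs) (l : Lw) (s : ℕ) :
    init a l s = (gF a l (s / 33554432)).f (s % 33554432) := by
  rw [init, force_eq, force_eq, ini1]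
  exact congrArg₂ _ (congrArg _ (Nat.shiftRight_eq_div_pow s 25)) (and_ones s 25)

theorem gF_def (a : Bs) (l : Lw) (k : ℕ) :
    gF a l k = gF0 a l (k % 256) (k / 256 % 32) (k / 8192 % 16) (k / 131072) := by
  rw [gF, force_eq, force_eq, force_eq, force_eq,
    show Nat.land k (nat_lit 255) = _ from and_ones k 8,
    show Nat.land (Nat.shiftRight k (nat_lit 8)) (nat_lit 31) = _ from and_ones _ 5,
    show Nat.land (Nat.shiftRight k (nat_lit 13)) (nat_lit 15) = _ from and_ones _ 4,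
    show Nat.shiftRight k (nat_lit 8) = _ from Nat.shiftRight_eq_div_pow k 8,
    show Nat.shiftRight k (nat_lit 13) = _ from Nat.shiftRight_eq_div_pow k 13,
    show Nat.shiftRight k (nat_lit 17) = _ from Nat.shiftRight_eq_div_pow k 17]
  simp only [Nat.reducePow]

theorem gF0_def (a : Bs) (l : Lw) (j f2 f3 f4 : ℕ) : gF0 a l j f2 f3 f4 =
    gF1 a l.hd j f2 (f3 + 7 * f4) (j - (l.dw + (13 * f3 + 40 * f4))) := by
  rw [gF0, force_eq, force_eq]
  exact congrArg₂ _ rfl rfl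

theorem gd_init (hn : 0 < a.n) {ps : ℕ → ℕ} (hL : Lay a n1 ps) (h : Tw1 a n1) (l : Lw) (s : ℕ) :
    Gd a (init a l s) := by
  rw [init_def, gF_def, gF0_def]
  exact ⟨(ar_gF1 hn (gd_tw hL h _ _) _ _ _ _).bd, (ar_gF1 hn (gd_tw hL h _ _) _ _ _ _).zs⟩

theorem init_eq (E F : Q4) (g e : ℕ) (h : l.dw + wt4 F + wt4 E + 13 * g + 40 * e ≤ 100) :
    init a l (coW l.dw l.dw E F g e) = (gF1 a l.hd (l.dw + wt4 F) F.2.1 (F.2.2.1 + 7 * F.2.2.2)
      (F.1 + 4 * F.2.1)).f (loW (l.dw + wt4 F) E g e) := by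
  obtain ⟨h1, h2, -⟩ := coW_dec (k := l.dw) h
  obtain ⟨k1, k2, k3, k4⟩ := hiW_dec (k := l.dw) (F := F) (by omega)
  rw [init_def, h1, h2, gF_def, k1, k2, k3, k4, gF0_def,
    show l.dw + wt4 F - (l.dw + (13 * F.2.2.1 + 40 * F.2.2.2)) = F.1 + 4 * F.2.1 by
      rw [wt4]; omega]

variable [Fact (Nat.Prime 3)]

/-- the twisted upper functionals are represented -/
def Tw2 (a : Bs) (z : Col) (y : Fin n1 → (ℕ →₀ ℕ) → A) : Prop :=
  ∀ (w : Fin n1) d c u b, u < 3 → RepW a.n a.tt z (· = 0) 0 (byte a.dm w + wt4 (u, b, c, d))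
    (tw3 a w d c u b).f 0 fun V E _ => TJ (y w) (u, b, c, d) V E

/-- **the initial arrays** -/
theorem init_rep (hn : 0 < a.n) (ht : a.tt ≤ 100) {ps : ℕ → ℕ} (hL : Lay a n1 ps)
    {y1 y2 : Fin n1 → (ℕ →₀ ℕ) → A} (hH : TabH a l ps y1)
    (hG : Tw1 a n1) (h2 : Tw2 a z y2) (S : Q4 → Prop) :
    RepW a.n a.tt z S l.dw l.dw (init a l) 0 (valJ y2 y1 0) := by
  intro E F g e W _ hW he
  refine ⟨(gd_init hn hL hG l _).bd, ?_⟩
  obtain ⟨h3, h4⟩ := hH F (by omega)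
  have h5 : ∀ p < a.nn, okP a (l.dw + wt4 F) p = true → (decP a (l.dw + wt4 F) p).1 < n1 ∧
      (decP a (l.dw + wt4 F) p).2.1 < 3 ∧ byte a.dm (decP a (l.dw + wt4 F) p).1 +
        wt4 (decP a (l.dw + wt4 F) p).2 = l.dw + wt4 F ∧ ps (decP a (l.dw + wt4 F) p).1 +
          (3 * (decP a (l.dw + wt4 F) p).2.2.2.1 + (decP a (l.dw + wt4 F) p).2.2.2.2) = p :=
    fun p hp ho => by
      have k1 := hL.dec p hp
      rw [okP_iff] at ho
      generalize l.dw + wt4 F = j at ho ⊢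
      simp only [decP, wt4, dgP] at ho ⊢
      omega
  have h6 : ∀ p < a.nn, cl ((tw a (l.dw + wt4 F) p).f (loW (l.dw + wt4 F) E g e))
      (a.n * (a.tt - W) + z.i) = if okP a (l.dw + wt4 F) p = true then z.ext (fun V =>
        TJ (ex0 y2 (decP a (l.dw + wt4 F) p).1) (decP a (l.dw + wt4 F) p).2 V E) g e W else 0 :=
    fun p hp => by
      rw [tw_eq]
      split_ifs with ho
      · obtain ⟨k1, k2, k3, -⟩ := h5 p hp ho
        have k4 := (h2 ⟨_, k1⟩ _ _ _ _ k2 E 0 g e W rfl hW (by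
          change W = byte a.dm (decP a (l.dw + wt4 F) p).1 + wt4 (decP a (l.dw + wt4 F) p).2 + 0 +
            wt4 E + 0 + _ + _
          omega)).2
        change cl (Fm.f _ (loW (byte a.dm (decP a (l.dw + wt4 F) p).1 +
          wt4 (decP a (l.dw + wt4 F) p).2) E g e)) _ = _ at k4
        rw [k3] at k4
        rw [ex0, dif_pos k1]
        exact k4
      · exact cl_zero _
  change cl (init a l (coW l.dw l.dw E F g e)) _ = _
  rw [init_eq E F g e (by omega), (ar_gF1 hn (gd_tw hL hG _ _) _ _ _ _).cl,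
    Finset.sum_congr rfl fun p hp => by rw [h6 p (Finset.mem_range.1 hp)]]
  rcases z.ext_cases g e W with ⟨V, k1, k2, k3, k4⟩ | ⟨-, k1⟩
  · rw [Col.ext_of V k1 k2 k3 k4, valJ_zero_pos (dm := byte a.dm)
      (ps := fun w U => ps w + (3 * U.2.2.1 + U.2.2.2)) (dec := decP a (l.dw + wt4 F))
      (t := fun p => (P236JY.tr ⟨_, _⟩ (a.nn * F.2.1 + p) : K)) h3 h4 h5 (fun w hw U k5 k6 => ?_)
      k1 E]
    · refine Finset.sum_congr rfl fun p _ => ?_
      rw [Col.ext_of V k1 k2 k3 k4, mul_ite, mul_zero]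
    · have k7 : l.dw + wt4 F ≤ a.tt := by omega
      generalize l.dw + wt4 F = j at k6 k7 ⊢
      rw [wt4] at k6
      obtain ⟨k8, k9, k10⟩ := hL.enc w hw U.2.2.1 U.2.2.2 (by omega)
      have k11 : dgP a (ps w + (3 * U.2.2.1 + U.2.2.2)) = byte a.dm w +
          (13 * U.2.2.1 + 40 * U.2.2.2) := by rw [dgP, k9, k10]; omega
      refine ⟨k8, by rw [okP_iff, k11]; omega, ?_⟩
      rw [decP, k11, k9, k10]
      exact Prod.ext rfl (Prod.ext (by simp only; omega) (Prod.ext (by simp only; omega)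
        (Prod.ext (by simp only; omega) (by simp only; omega))))
  · simp only [k1, ite_self, mul_zero, Finset.sum_const_zero]

end Vale.Agent.P236JW

end
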