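import Vale.Agent.P236JI.Tab
import Vale.Agent.P236JK.Frob

/-!
# P236JI / Ini : the initial arrays
-/

noncomputable section

namespace Vale.Agent.P236JK.Ini

open MvPolynomial Vale.Agent.P236K3 Vale.Agent.P236KE Vale.Agent.P236JF

variable {p : Pm}

theorem mb_le (h0 : 0 < p.nw) : mb p ≤ blk p := by
  rw [blk_eq]
  exact Nat.le_mul_of_pos_right _ h0

theorem row1_at (x : P) (i : ℕ) :
    At (row1 p x) i (if i < mb p then (P236JY.tr x (p.b0 * p.bb + i) : K) else 0) := by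
  have h := at_nrm ((x.a >>> (p.b0 * p.bb)) &&& rowM p) ((x.b >>> (p.b0 * p.bb)) &&& rowM p) i
  have h1 : (rowM p).testBit i = decide (i < mb p) := by
    rw [Bool.eq_iff_iff, decide_eq_true_iff]
    exact bit_ones _ _
  simp only [P236JY.tr, Nat.testBit_and, Nat.testBit_shiftRight, h1] at h
  by_cases h2 : i < mb p
  · rw [if_pos h2]
    simp only [h2, decide_true, Bool.and_true] at h
    exact h
  · rw [if_neg h2]
    simp only [h2, decide_false, Bool.and_false] at h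
    exact h

theorem rows_at (h0 : 0 < p.nw) (l : DL) (be i : ℕ) {r : ℕ} (hr : r < mb p) (B : ℕ) :
    At (rows p l be (i + 1 + B)) (blk p * B + r)
      (P236JY.tr (pairAt l (be + i)) (p.b0 * p.bb + r) : K) := by
  have h1 := mb_le h0
  induction B with
  | zero =>
    have h := row1_at (p := p) (pairAt l (be + i)) r
    rw [if_pos hr] at h
    rw [mul_zero, zero_add]
    exact (at_shl_zero _ (by omega)).lor_right h
  | succ B ih =>
    have h := row1_at (p := p) (pairAt l (be + (i + 1 + B))) (blk p + (blk p * B + r))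
    rw [if_neg (by omega)] at h
    rw [show blk p * (B + 1) + r = blk p + (blk p * B + r) by ring]
    exact (ih.shl _).lor_left h

theorem rows_zero (h0 : 0 < p.nw) (l : DL) (be n : ℕ) {i : ℕ} (hi : blk p * n ≤ i) :
    At (rows p l be n) i 0 := by
  have h1 := mb_le h0
  induction n generalizing i with
  | zero => exact at_zero _
  | succ n ih =>
    rw [Nat.mul_succ] at hi
    obtain ⟨j, rfl⟩ : ∃ j, i = blk p + j := ⟨i - blk p, by omega⟩
    have h := row1_at (p := p) (pairAt l (be + n)) (blk p + j)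
    rw [if_neg (by omega)] at h
    exact ((ih (by omega)).shl _).lor_left h

theorem len_le (p : Pm) (u s : ℕ) : len p u s ≤ top p (sV s) + 1 := by
  rw [len_eq]
  exact min_le_right _ _

theorem base_zero (h0 : 0 < p.nw) (w s : ℕ) {i : ℕ} (hi : blk p * (top p (sV s) + 1) ≤ i) :
    At (base p w s) i 0 :=
  rows_zero h0 _ _ _ ((Nat.mul_le_mul_left _ (len_le p 0 s)).trans hi)

theorem cut_zero (u s : ℕ) (x : P) {i : ℕ} (hi : blk p * (top p (sV s) + 1) ≤ i) :
    At (cut p u s x) i 0 := by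
  have h := len_le p u s
  rw [P236JK.cut]
  rcases hm : len p u s with _ | m
  · exact at_zero _
  · refine at_and_zero _ (Bool.eq_false_iff.2 fun h1 => ?_)
    have h2 : i < (m + 1) * blk p := (bit_ones _ _).1 h1
    have h3 := Nat.mul_le_mul_left (blk p) (hm ▸ h)
    rw [mul_comm] at h2
    omega

theorem init_zero (s : ℕ) {i : ℕ} (hi : blk p * (top p (sV s) + 1) ≤ i) : At (init p s) i 0 :=
  cut_zero _ _ _ hi

variable [Fact (Nat.Prime 3)] {w b db : ℕ}

/-- **the upper functionals** -/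
theorem base_rep {n1 n2 : ℕ} {y : Fin n1 → Fin n2 → (ℕ →₀ ℕ) → A}
    (hT : TabT p.up p.bb p.dm p.dup p.tt y) (w1 : Fin n1) (B : Fin n2) (hb : B.1 = p.b0 + b)
    (hp : WF p) (hs : Sd p 0 b (byte p.dm w1) (byte p.dup B)) :
    Rep p (· = 0) 0 b (byte p.dm w1) (byte p.dup B) ⟨base p w1⟩ 0
      fun V E _ => TJ (y w1 B) 0 V E := by
  rintro V E _ rfl hV ht he
  have h1 := hp.tt
  have h2 := hs.bb
  have h3 : wt4 0 = 0 := rfl
  have h4 : 4 * E.2.1 ≤ wt4 E := by rw [wt4]; omega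
  obtain ⟨c1, -, -, -, -, c6⟩ := cod_dec (V := V) (E := E) (F := 0) (dw := byte p.dm w1) (by omega)
  obtain ⟨h5, h6⟩ := row_lt hp hs hV ht he
  have h7 := len_le p 0 (cod V E 0 (byte p.dm w1))
  change At (rows p (DTr.get (DTL.get p.up w1) ((cod V E 0 (byte p.dm w1) &&& 63) +
    64 * sV (cod V E 0 (byte p.dm w1)))) (top p (sV (cod V E 0 (byte p.dm w1))) + 1 -
      len p 0 (cod V E 0 (byte p.dm w1))) (len p 0 (cod V E 0 (byte p.dm w1)))) _
    (TJ (y w1 B) 0 V E)
  rw [c1] at h7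
  rw [c1, c6, TJ_zero, hT w1 B V E hV ht (by omega) (by omega), psn, mul_zero, zero_add]
  generalize len p 0 (cod V E 0 (byte p.dm w1)) = n at h6 h7 ⊢
  obtain ⟨i, rfl⟩ : ∃ i, n = i + 1 + (top p (vv V) - V.2.1) :=
    ⟨n - 1 - (top p (vv V) - V.2.1), by omega⟩
  have h8 := rows_at hs.hw (DTr.get (DTL.get p.up w1) (E.2.2.1 + 16 * E.2.2.2 + 64 * vv V))
    (top p (vv V) + 1 - (i + 1 + (top p (vv V) - V.2.1))) i (slot_lt (E := E) hs (by omega))
    (top p (vv V) - V.2.1)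
  rwa [show top p (vv V) + 1 - (i + 1 + (top p (vv V) - V.2.1)) + i = V.2.1 by omega,
    show p.b0 * p.bb + (p.bb * b + E.2.1) = B * p.bb + E.2.1 by rw [hb]; ring] at h8

/-- the first generator is invariant -/
theorem TJ_v1 (y : (ℕ →₀ ℕ) → A) (a v : ℕ) (U V : ℕ × ℕ × ℕ) (h : v + a < 3) (E : Q4) :
    TJ y (a, U) (v + a, V) E = TJ y (0, U) (v, V) E := by
  induction a with
  | zero => rfl
  | succ a ih =>
    rw [← ih (by omega), TJ_step (show ((3 : ℕ) : K) = 0 from rfl) y (i := 0) (by omega)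
      (m4_s0 a U.1 U.2.1 U.2.2) (V := (v + (a + 1), V)) h, show elsJ 0 = ej1 from rfl, ej1,
      List.filter_cons, if_pos (by simp [le4]; omega), List.filter_nil, List.map_cons, List.map_nil,
      List.sum_cons, List.sum_nil, add_zero, Nat.cast_one, one_mul]
    rfl

omit [Fact (Nat.Prime 3)] in
theorem twR_at {B r s d c b2 : ℕ} {t : K} (hB : B ≤ top p 0) (hw : w < p.nw)
    (hr : r < mb p) {w1 : ℕ} (h : At ((tw2 p w1 d c b2).f s) (blk p * B + r) t) :
    At (twR p w1 d c b2 s) (blk p * B + (mb p * w + r)) t :=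
  ⟨(bit_rep (by omega) (by omega) _ hB hw hr).trans h.1,
    (bit_rep (by omega) (by omega) _ hB hw hr).trans h.2⟩

theorem ini1_at (hp : WF p) {B r s d c b2 x y o : ℕ} {t z : K} (hB : B ≤ top p 0) (hw : w < p.nw)
    (hr : r < mb p) {w1 : ℕ} {ih : P} (h : At ((tw2 p w1 d c b2).f s) (blk p * B + r) t)
    (h' : At ih (blk p * B + (mb p * w + r)) z) :
    At (ini1 p w1 d c b2 ih x y o s) (blk p * B + (mb p * w + r))
      ((P236JY.tr ⟨x, y⟩ (o + w) : K) * t + z) := by
  have h1 := at_nrm (bits p x o) (bits p y o) w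
  have h2 : P236JY.tr ⟨bits p x o, bits p y o⟩ w = P236JY.tr ⟨x, y⟩ (o + w) := by
    simp only [P236JY.tr, bit_bits, decide_eq_true hw, Bool.and_true]
  have h3 : ∀ x i, (bits p x o).testBit i = true → i < p.nw := fun x i hi => by
    rw [bit_bits, Bool.and_eq_true, decide_eq_true_iff] at hi
    exact hi.2
  rw [h2] at h1
  change At (ini3 p w1 d c b2 s ih (nrm (bits p x o) (bits p y o)).a
    (nrm (bits p x o) (bits p y o)).b) _ _
  have h4 : ∀ i, (nrm (bits p x o) (bits p y o)).b.testBit i = true → i < p.nw := fun i hi => by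
    change (bits p y o ^^^ (bits p x o &&& bits p y o)).testBit i = true at hi
    rw [Nat.testBit_xor, Nat.testBit_and] at hi
    refine h3 y i ?_
    revert hi
    cases (bits p y o).testBit i <;> simp
  have h5 : ∀ i, (nrm (bits p x o) (bits p y o)).a.testBit i = true → i < p.nw := h3 x
  generalize nrm (bits p x o) (bits p y o) = q at h1 h4 h5 ⊢
  rw [ini3]
  cases h6 : Nat.beq (Nat.add q.a q.b) (nat_lit 0)
  · have h7 : At (lo3 p q.a q.b) (blk p * B + (mb p * w + r)) (P236JY.tr ⟨x, y⟩ (o + w) : K) :=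
      ⟨(bit_fil hp.nw h5 hB hw hr).trans h1.1, (bit_fil hp.nw h4 hB hw hr).trans h1.2⟩
    rw [add_comm (_ * t)]
    exact h'.add (h7.pmul (twR_at hB hw hr h))
  · obtain ⟨h7, h8⟩ := Nat.add_eq_zero_iff.1 (Nat.eq_of_beq_eq_true h6)
    rw [h1.eq_zero (by rw [sup, h7, h8]; exact Nat.zero_testBit _), zero_mul, zero_add]
    exact h'

/-- the sum over a list of entries -/
def iniR (p : Pm) (s0 a0 o : ℕ) (l : ML) : P :=
  ML.rec (motive := fun _ => P) P.zero
    (fun w a b c d x y _ ih => ite' (Nat.ble a a0)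
      (force (Nat.sub s0 (Nat.mul (nat_lit 134479872) a)) (ini1 p w d c b ih x y o)) ih) l

/-- extension by zero -/
def ex0 {n : ℕ} (y : Fin n → (ℕ →₀ ℕ) → A) (i : ℕ) : (ℕ →₀ ℕ) → A :=
  if h : i < n then y ⟨i, h⟩ else 0

omit [Fact (Nat.Prime 3)] in
theorem ex0_eq {n : ℕ} (y : Fin n → (ℕ →₀ ℕ) → A) : (fun i : Fin n => ex0 y i) = y :=
  funext fun i => dif_pos i.2

/-- the twisted upper functionals are represented -/
def Tw (p : Pm) (b db : ℕ) {n1 : ℕ} (y : Fin n1 → (ℕ →₀ ℕ) → A) : Prop :=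
  ∀ (w1 : Fin n1) d c b2, Rep p (· = 0) 0 b (byte p.dm w1 + (40 * d + 13 * c + 4 * b2)) db
    (tw2 p w1 d c b2) 0 fun V E _ => TJ (y w1) (0, b2, c, d) V E

theorem iniR_at (hp : WF p) {dw j o n1 : ℕ} (hs : Sd p w b dw db)
    {y1 y2 : Fin n1 → (ℕ →₀ ℕ) → A} (h2 : Tw p b db y2) {V E F : Q4} (hV : V.1 < 3)
    (ht : wt4 V + db ≤ p.tt) (he : wt4 V + db = j + wt4 E) (hj : dw ≤ j) : ∀ l : ML,
    AllE (fun w1 U x => ∃ h : w1 < n1, U.1 < 3 ∧ byte p.dm w1 + wt4 U = j ∧
      coeff (m4 U) (y1 ⟨w1, h⟩ (m4 F)) = (P236JY.tr x (o + w) : K)) l →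
    At (iniR p (cod V E 0 j) V.1 o l) (psn p V w b E) ((ky l).map fun a =>
      coeff (m4 a.2) (ex0 y1 a.1 (m4 F)) * TJ (ex0 y2 a.1) a.2 V E).sum
  | .nil, _ => at_zero _
  | .cons w1 a b2 c d x y l, ⟨⟨h, _, k1, k2⟩, k3⟩ => by
    have ih := iniR_at hp hs h2 hV ht he hj l k3
    change At (ite' (Nat.ble a V.1) (ini1 p w1 d c b2 (iniR p (cod V E 0 j) V.1 o l) x y o
      (cod V E 0 j - 134479872 * a)) (iniR p (cod V E 0 j) V.1 o l)) _ _
    rw [ky, List.map_cons, List.sum_cons, ex0, ex0, dif_pos h, dif_pos h]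
    cases h3 : Nat.ble a V.1
    · rw [← Bool.not_eq_true, Nat.ble_eq, not_le] at h3
      rw [TJ_of_le (show ((3 : ℕ) : K) = 0 from rfl) _ h3 le_rfl, mul_zero, zero_add]
      exact ih
    · obtain ⟨v0, V⟩ := V
      obtain ⟨v, rfl⟩ : ∃ v, v0 = v + a := ⟨v0 - a, by have := Nat.le_of_ble_eq_true h3; omega⟩
      have h4 := hp.tt
      have h5 := h2 ⟨w1, h⟩ d c b2 (v, V) E 0 rfl (by omega) (by simp only [wt4] at ht ⊢; omega)
        (by simp only [wt4, Prod.fst_zero, Prod.snd_zero] at he k1 ⊢; omega)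
      have h6 : top p (vv (v, V)) = top p (vv (v + a, V)) := by
        rw [top_vv (by omega) (by simp only [wt4] at ht ⊢; omega), top_vv hV (by omega)]
      rw [psn, mul_zero, zero_add, h6] at h5
      rw [k2, TJ_v1 _ a v _ V hV, show cod (v + a, V) E 0 j - 134479872 * a =
        cod (v, V) E 0 (byte p.dm w1 + (40 * d + 13 * c + 4 * b2)) by
          simp only [cod, mm, vv, wt4] at k1 ⊢; omega]
      exact ini1_at hp ((Nat.sub_le _ _).trans (top_le _ _)) hs.hw
        (slot_lt (E := E) hs (by omega)) h5 ih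

/-- **the initial arrays** -/
theorem init_rep {n n1 : ℕ} {y1 : Fin n → Fin n1 → (ℕ →₀ ℕ) → A} {y2 : Fin n1 → (ℕ →₀ ℕ) → A}
    (hn : p.n = n) (hA : TabA p.lo p.cf.rk p.dlo p.dm p.tt y1) (W : Fin n) (hw : W.1 = p.w0 + w)
    (hp : WF p) (hs : Sd p w b (byte p.dlo W) db) (h2 : Tw p b db y2) (S : Q4 → Prop) :
    Rep p S w b (byte p.dlo W) db ⟨init p⟩ 0 (valJ y2 (y1 W) 0) := by
  intro V E F _ hV ht he
  have h1 := hp.tt
  obtain ⟨c1, c2, c3, c4, c5, -⟩ :=
    cod_dec (V := V) (E := E) (F := F) (dw := byte p.dlo W) (by omega)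
  have h3 := hA W F (by omega)
  refine At.cut hp hs hV ht he ?_
  have h4 : sJ (cod V E F (byte p.dlo W)) = byte p.dlo W + wt4 F := by
    change sM _ - (13 * (cod V E F (byte p.dlo W) &&& 15) +
      40 * ((cod V E F (byte p.dlo W) >>> 4) &&& 3)) = _
    rw [c2, c4, c5, mm]
    omega
  change At (iniR p (cod V E F (byte p.dlo W) - 64 * sF (cod V E F (byte p.dlo W)))
    (vA (sV (cod V E F (byte p.dlo W)))) (p.n * byte p.cf.rk (sF (cod V E F (byte p.dlo W))) + p.w0)
    (MLL.get p.lo (sJ (cod V E F (byte p.dlo W))))) _ _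
  rw [c1, c3, h4, (v_dec hV (by omega)).1, hn, show cod V E F (byte p.dlo W) - 64 * ff F =
    cod V E 0 (byte p.dlo W + wt4 F) by
      simp only [cod, mm, show ff 0 = 0 from rfl, show wt4 0 = 0 from rfl]; omega,
    ← ex0_eq y2, ← ex0_eq (y1 W), valJ_zero_list _ _ h3.nd ?_ ?_ hV E]
  · refine iniR_at hp hs h2 hV ht (by omega) (by omega) _ ?_
    rw [add_assoc, ← hw]
    exact h3.val
  · have h5 := h3.val
    generalize MLL.get p.lo (byte p.dlo W + wt4 F) = l at h5
    induction l with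
    | nil => exact fun _ h => absurd h List.not_mem_nil
    | cons _ _ _ _ _ _ _ l ih =>
      exact fun a h => (List.mem_cons.1 h).elim (fun e => e ▸ h5.1.1) (ih h5.2 a)
  · intro w1 h m h5 h6
    rw [ex0, dif_pos h] at h5
    exact h3.all ⟨w1, h⟩ m h5 h6

end Vale.Agent.P236JK.Ini

end
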