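import Vale.Agent.P236JI.Bit
import Vale.Agent.P236KE.Y
import Vale.Agent.P236JY.Y

/-!
# P236JI / Rep : arrays represent systems of values
-/

namespace Vale.Agent.P236JK.Ini

open Vale.Agent.P236K3 Vale.Agent.P236KE

/-- the digit of `x` at the place `i` is `c` -/
def At (x : P) (i : ℕ) (c : K) : Prop := x.a.testBit i = is1 c ∧ x.b.testBit i = is2 c

variable {x y : P} {i : ℕ} {c d : K}

theorem at_zero (i : ℕ) : At P.zero i 0 := rp_zero i

theorem At.add (h : At x i c) (h' : At y i d) : At (x.add y) i (c + d) := by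
  change ((x.b ||| y.b) ^^^ ((x.a ||| y.b) ^^^ (x.b ||| y.a))).testBit i = _ ∧
    ((x.a ||| y.a) ^^^ ((x.a ||| y.b) ^^^ (x.b ||| y.a))).testBit i = _
  simp only [Nat.testBit_xor, Nat.testBit_or, h.1, h.2, h'.1, h'.2]
  clear h h'
  revert c d
  decide

theorem At.neg (h : At x i c) : At x.neg i (-c) := by
  change x.b.testBit i = _ ∧ x.a.testBit i = _
  rw [h.1, h.2]
  clear h
  revert c
  decide

theorem At.pmul (h : At x i c) (h' : At y i d) : At (pmul x y) i (c * d) := by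
  change ((x.a &&& y.a) ||| (x.b &&& y.b)).testBit i = _ ∧
    ((x.a &&& y.b) ||| (x.b &&& y.a)).testBit i = _
  simp only [Nat.testBit_and, Nat.testBit_or, h.1, h.2, h'.1, h'.2]
  clear h h'
  revert c d
  decide

theorem At.shr {s : ℕ} (h : At x (s + i) c) : At (shr x s) i c :=
  ⟨(Nat.testBit_shiftRight _).trans h.1, (Nat.testBit_shiftRight _).trans h.2⟩

theorem At.and {m : ℕ} (h : At x i c) (hm : m.testBit i = true) : At (x.and m) i c := by
  change (x.a &&& m).testBit i = _ ∧ (x.b &&& m).testBit i = _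
  rw [Nat.testBit_and, Nat.testBit_and, hm, Bool.and_true, Bool.and_true]
  exact h

theorem at_and_zero (x : P) {m : ℕ} (hm : m.testBit i = false) : At (x.and m) i 0 := by
  change (x.a &&& m).testBit i = _ ∧ (x.b &&& m).testBit i = _
  rw [Nat.testBit_and, Nat.testBit_and, hm, Bool.and_false, Bool.and_false]
  decide

theorem At.shl (h : At x i c) (s : ℕ) : At (x.shl s) (s + i) c := by
  change (x.a <<< s).testBit _ = _ ∧ (x.b <<< s).testBit _ = _
  rw [Nat.testBit_shiftLeft, Nat.testBit_shiftLeft, Nat.add_sub_cancel_left,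
    decide_eq_true (Nat.le_add_right s i), Bool.true_and, Bool.true_and]
  exact h

theorem at_shl_zero (x : P) {s : ℕ} (h : i < s) : At (x.shl s) i 0 := by
  change (x.a <<< s).testBit _ = _ ∧ (x.b <<< s).testBit _ = _
  rw [Nat.testBit_shiftLeft, Nat.testBit_shiftLeft, decide_eq_false (not_le.2 h), Bool.false_and,
    Bool.false_and]
  decide

theorem At.lor_left (h : At x i c) (h' : At y i 0) : At (x.lor y) i c := by
  change (x.a ||| y.a).testBit i = _ ∧ (x.b ||| y.b).testBit i = _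
  rw [Nat.testBit_or, Nat.testBit_or, h'.1, h'.2, h.1, h.2]
  exact ⟨Bool.or_false _, Bool.or_false _⟩

theorem At.lor_right (h : At x i 0) (h' : At y i c) : At (x.lor y) i c := by
  change (x.a ||| y.a).testBit i = _ ∧ (x.b ||| y.b).testBit i = _
  rw [Nat.testBit_or, Nat.testBit_or, h'.1, h'.2, h.1, h.2]
  exact ⟨Bool.false_or _, Bool.false_or _⟩

theorem At.eq_zero (h : At x i c) (h0 : (sup x).testBit i = false) : c = 0 := by
  change (x.a ||| x.b).testBit i = false at h0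
  rw [Nat.testBit_or, h.1, h.2] at h0
  clear h
  revert c
  decide

theorem at_nrm (a b i : ℕ) : At (nrm a b) i (P236JY.tr ⟨a, b⟩ i : K) := P236JY.cl_R ⟨a, b⟩ i

/-- the code of the exponents of `v_1`, `v_3`, `v_4` -/
def vv (V : Q4) : ℕ := V.1 + 4 * V.2.2.1 + 32 * V.2.2.2

/-- the code of the last three exponents -/
def ff (F : Q4) : ℕ := F.2.2.1 + 16 * F.2.2.2 + 64 * F.2.1

/-- the middle part of a code -/
def mm (E F : Q4) (dw : ℕ) : ℕ := dw + wt4 F + 13 * E.2.2.1 + 40 * E.2.2.2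

/-- the code of an array -/
def cod (V E F : Q4) (dw : ℕ) : ℕ :=
  E.2.2.1 + 16 * E.2.2.2 + 64 * ff F + 262144 * mm E F dw + 134217728 * vv V

/-- the place in the array -/
def psn (p : Pm) (V : Q4) (w b : ℕ) (E : Q4) : ℕ :=
  blk p * (top p (vv V) - V.2.1) + (mb p * w + (p.bb * b + E.2.1))

/-- the family `X` represents the values `val` -/
def Rep (p : Pm) (S : Q4 → Prop) (w b dw db : ℕ) (X : Fm) (u : ℕ) (val : Q4 → Q4 → Q4 → K) :
    Prop := ∀ V E F, S F → V.1 < 3 → wt4 V + db ≤ p.tt → wt4 V + db = dw + u + wt4 E + wt4 F →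
  At (X.f (cod V E F dw)) (psn p V w b E) (val V E F)

/-- admissible parameters -/
structure WF (p : Pm) : Prop where
  nw : p.nw < mb p
  tt : p.tt ≤ 100

/-- the position of a pair of generators in the group -/
structure Sd (p : Pm) (w b dw db : ℕ) : Prop where
  hw : w < p.nw
  hb : b < p.nb
  bb : p.tt < dw + 4 * p.bb
  d2 : db ≤ p.d2
  t0 : p.tt ≤ db + p.t0

variable {p : Pm} {V E F : Q4} {w b dw db u : ℕ}

theorem v_dec (hV : V.1 < 3) (h : wt4 V ≤ 100) :
    vA (vv V) = V.1 ∧ vC (vv V) = V.2.2.1 ∧ vD (vv V) = V.2.2.2 := by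
  change vv V &&& (2 ^ 2 - 1) = _ ∧ (vv V >>> 2) &&& (2 ^ 3 - 1) = _ ∧ vv V >>> 5 = _
  simp only [Nat.and_two_pow_sub_one_eq_mod, Nat.shiftRight_eq_div_pow, vv, wt4] at h ⊢
  omega

theorem wCD_vv (hV : V.1 < 3) (h : wt4 V ≤ 100) : wCD (vv V) = 13 * V.2.2.1 + 40 * V.2.2.2 := by
  change 13 * vC (vv V) + 40 * vD (vv V) = _
  rw [(v_dec hV h).2.1, (v_dec hV h).2.2]

theorem top_eq (p : Pm) (v : ℕ) : top p v = (p.t0 - wCD v) / 4 :=
  Nat.shiftRight_eq_div_pow _ 2

theorem top_vv (hV : V.1 < 3) (h : wt4 V ≤ 100) :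
    top p (vv V) = (p.t0 - (13 * V.2.2.1 + 40 * V.2.2.2)) / 4 := by rw [top_eq, wCD_vv hV h]

theorem top_le (p : Pm) (v : ℕ) : top p v ≤ top p 0 := by
  rw [top_eq, top_eq, show wCD 0 = 0 from rfl]
  omega

theorem cod_dec (h : dw + wt4 E + wt4 F ≤ 100) : sV (cod V E F dw) = vv V ∧
    sM (cod V E F dw) = mm E F dw ∧ sF (cod V E F dw) = ff F ∧
    cod V E F dw &&& 15 = E.2.2.1 ∧ (cod V E F dw >>> 4) &&& 3 = E.2.2.2 ∧
    cod V E F dw &&& 63 = E.2.2.1 + 16 * E.2.2.2 := by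
  change cod V E F dw >>> 27 = _ ∧ (cod V E F dw >>> 18) &&& (2 ^ 9 - 1) = _ ∧
    (cod V E F dw >>> 6) &&& (2 ^ 12 - 1) = _ ∧ cod V E F dw &&& (2 ^ 4 - 1) = _ ∧
    (cod V E F dw >>> 4) &&& (2 ^ 2 - 1) = _ ∧ cod V E F dw &&& (2 ^ 6 - 1) = _
  have h1 : mm E F dw ≤ 100 := by simp only [mm, wt4] at h ⊢; omega
  have h2 : ff F < 4096 := by simp only [ff, wt4] at h ⊢; omega
  have h3 : E.2.2.1 < 16 ∧ E.2.2.2 < 4 := by simp only [wt4] at h; omega
  simp only [Nat.and_two_pow_sub_one_eq_mod, Nat.shiftRight_eq_div_pow, cod]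
  simp only [Nat.reducePow]
  generalize vv V = v
  generalize mm E F dw = m at h1 ⊢
  generalize ff F = f at h2 ⊢
  refine ⟨?_, ?_, ?_, ?_, ?_, ?_⟩ <;> omega

theorem slot_lt (hs : Sd p w b dw db) (h : dw + wt4 E ≤ p.tt) : p.bb * b + E.2.1 < mb p := by
  have h1 := hs.bb
  have h2 := Nat.mul_le_mul_left p.bb hs.hb
  change _ < p.nb * p.bb
  rw [Nat.mul_succ, mul_comm p.bb p.nb] at h2
  rw [wt4] at h
  omega

theorem len_eq (p : Pm) (u s : ℕ) : len p u s =
    min ((vA (sV s) + 4 * top p (sV s) + wCD (sV s) + (p.d2 + 4) - (sM s + u)) / 4)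
      (top p (sV s) + 1) := by
  change ite' (Nat.ble ((hH p (sV s) - (sM s + u)) >>> 2) (top p (sV s)))
    ((hH p (sV s) - (sM s + u)) >>> 2) (top p (sV s) + 1) = _
  rw [Nat.shiftRight_eq_div_pow, show hH p (sV s) =
    vA (sV s) + 4 * top p (sV s) + wCD (sV s) + (p.d2 + 4) from rfl]
  generalize vA (sV s) + 4 * top p (sV s) + wCD (sV s) + (p.d2 + 4) - (sM s + u) = z
  cases h : Nat.ble (z / 2 ^ 2) (top p (sV s))
  · rw [← Bool.not_eq_true, Nat.ble_eq] at h
    change top p (sV s) + 1 = _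
    omega
  · rw [Nat.ble_eq] at h
    change z / 2 ^ 2 = _
    omega

/-- the exponent of `v_2` is at most the top one, and its row is needed -/
theorem row_lt (hp : WF p) (hs : Sd p w b dw db) (hV : V.1 < 3) (ht : wt4 V + db ≤ p.tt)
    (he : wt4 V + db = dw + u + wt4 E + wt4 F) :
    V.2.1 ≤ top p (vv V) ∧ top p (vv V) - V.2.1 < len p u (cod V E F dw) := by
  have h1 := hp.tt
  have h2 := hs.d2
  have h3 := hs.t0
  obtain ⟨c1, c2, -⟩ := cod_dec (V := V) (E := E) (F := F) (dw := dw) (by omega)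
  rw [len_eq, c1, c2, (v_dec hV (by omega)).1, wCD_vv hV (by omega), top_vv hV (by omega), mm]
  generalize wt4 F = f at he ⊢
  simp only [wt4] at ht he
  omega

/-- cutting keeps the digits which are needed -/
theorem At.cut (hp : WF p) (hs : Sd p w b dw db) (hV : V.1 < 3) (ht : wt4 V + db ≤ p.tt)
    (he : wt4 V + db = dw + u + wt4 E + wt4 F) (h : At x (psn p V w b E) c) :
    At (cut p u (cod V E F dw) x) (psn p V w b E) c := by
  have h1 := (row_lt hp hs hV ht he).2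
  obtain ⟨m, hm⟩ : ∃ m, len p u (cod V E F dw) = m + 1 := ⟨_, (Nat.succ_pred_eq_of_pos
    (Nat.zero_lt_of_lt h1)).symm⟩
  rw [P236JK.cut, hm]
  refine h.and ((bit_ones _ _).2 ?_)
  have h2 := inner_lt hs.hw (slot_lt (E := E) hs (by omega))
  have h3 := Nat.mul_le_mul_left (blk p) (show top p (vv V) - V.2.1 ≤ m by omega)
  change _ < (m + 1) * blk p
  rw [psn, add_mul, one_mul, mul_comm m]
  omega

end Vale.Agent.P236JK.Ini
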