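import Vale.Agent.P236JI.Ini
import Vale.Agent.P236JE.Lv2
import Vale.Agent.P236JR.Acc
import Vale.Agent.P236JY.Sph
import Vale.Agent.P236JF.Main

/-!
# P236JI / Main : the curvature condition from the checks
-/

noncomputable section

namespace Vale.Agent.P236JK.Ini

open MvPolynomial Vale.Agent.P236K3 Vale.Agent.P236KE Vale.Agent.P236JF Vale.Agent.P236JR
open Vale.Agent.P236JY (rJ)
open Vale.Agent.P236KE.S90 (sph)

variable [Fact (Nat.Prime 3)]

/-- **Soundness of the program.** -/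
theorem val_zero {a : Bs} {gs : List Gp} {n n1 n2 : ℕ} {y1 : Fin n → Fin n1 → (ℕ →₀ ℕ) → A}
    {y2 : Fin n1 → Fin n2 → (ℕ →₀ ℕ) → A} (hc : CfOk a.cf) (hn : a.n = n)
    (hA : TabA a.lo a.cf.rk a.dlo a.dm a.tt y1) (hT : TabT a.up a.bb a.dm a.dup a.tt y2)
    (hm : ∀ w1 < n1, a.tt < byte a.dm w1 + 4 * a.bb) (h : AllK a gs)
    (hv : cov gs n n2 a.dlo a.dup a.tt = true) (ht : a.tt ≤ 100) (w : Fin n) (b : Fin n2)
    {V G : Q4} (hV : V.1 < 3) (h2 : wt4 V + byte a.dup b ≤ a.tt)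
    (h3 : wt4 G + byte a.dlo w = wt4 V + byte a.dup b) :
    valJ (fun w1 => y2 w1 b) (y1 w) G V 0 0 = 0 := by
  refine of_allK (S := fun _ => True) h hv ht w.2 b.2
    (fun g1 g2 g3 g4 V e f hV => valJ_t1 g1 g2 g3 g4 hV _ _) (fun _ => trivial)
    (fun g w' b' hw hb hp hs => x2_rep hc hp hs (init_rep (p := mkP a g) hn hA w hw hp hs
      (fun w1 d c b2 => ?_) _)) hV h2 h3
  have h4 : Sd (mkP a g) 0 b' (byte a.dm w1) (byte a.dup b) :=
    ⟨Nat.zero_lt_of_lt hs.hw, hs.hb, hm w1 w1.2, hs.d2, hs.t0⟩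
  have h5 := tw2_rep hc hp h4 (base_rep (p := mkP a g) hT w1 b hb hp h4) d c b2
  rwa [show byte a.dm w1 + 4 * b2 + 13 * c + 40 * d = byte a.dm w1 + (40 * d + 13 * c + 4 * b2) by
    omega] at h5

/-- the composite of the matrices number `q` and `q + 1` vanishes in the visible range -/
def SqJ (q : ℕ) : Prop :=
  ∀ (w : sph.G (q + 1)) (b : sph.G (q + 3)) (E V : Q4), V.1 < 3 → wt4 E + sph.dg (q + 1) w ≤ 90 →
    wt4 V + sph.dg (q + 3) b = wt4 E + sph.dg (q + 1) w →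
      valJ (fun w' => rJ.y (q + 1) w' b) (fun w' => rJ.y q w w') E V 0 0 = 0

/-- the side conditions -/
def sdK (a : Bs) (gs : List Gp) (q : ℕ) : Bool :=
  Nat.beq a.n (sph.n q) && Nat.beq a.dlo (sph.d q) && Nat.beq a.dm (sph.d (q + 1)) &&
    Nat.beq a.dup (sph.d (q + 2)) && Nat.beq a.tt 90 &&
      ((List.range (sph.n (q + 1))).all fun w => Nat.blt 90 (byte a.dm w + 4 * a.bb)) &&
        cov gs (sph.n q) (sph.n (q + 2)) a.dlo a.dup a.tt

theorem sqJ {a : Bs} {gs : List Gp} {q : ℕ} (hc : CfOk a.cf) (hs : sdK a gs q = true)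
    (hA : TabA a.lo a.cf.rk (sph.d q) (sph.d (q + 1)) 90 (n := sph.n q) (n1 := sph.n (q + 1))
      (rJ.y q))
    (hT : TabT a.up a.bb (sph.d (q + 1)) (sph.d (q + 2)) 90 (n1 := sph.n (q + 1))
      (n2 := sph.n (q + 2)) (rJ.y (q + 1))) (h : AllK a gs) : SqJ q := by
  simp only [sdK, Bool.and_eq_true, Nat.beq_eq, List.all_eq_true, List.mem_range, Nat.blt_eq] at hs
  obtain ⟨⟨⟨⟨⟨⟨h1, h2⟩, h3⟩, h4⟩, h5⟩, h6⟩, h7⟩ := hs
  intro w b E V hV k1 k2
  change _ + byte (sph.d q) w ≤ _ at k1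
  change _ + byte (sph.d (q + 2)) b = _ + byte (sph.d q) w at k2
  rw [← h2, ← h3, ← h5] at hA
  rw [← h3, ← h4, ← h5] at hT
  rw [← h2] at k1 k2
  rw [← h4] at k2
  exact val_zero hc h1 hA hT (by rw [h5]; exact h6) h h7 (by omega) w b hV (by omega) k2.symm

/-- **The curvature condition for the lifted resolution.** -/
theorem k1_of {Q : ℕ} (h : ∀ q, q + 1 < Q → SqJ q) : rJ.K1 (Jr K 3) Q 90 :=
  k1J (g := sph.gn) rJ (dg := sph.dg) (fun _ _ => rfl) (fun _ _ => rfl) (fun w w' => by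
    rw [sph.dg_one]
    exact (show ∀ i < sph.n 1, 0 < byte (sph.d 1) i by decide +kernel) w' w'.2)
    (k := 3) (T := 90) (by decide) h

end Vale.Agent.P236JK.Ini

end
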