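import Vale.Agent.P236JW.Eng3
import Vale.Agent.P236JD.Tab

/-!
# P236JI / Run : the test for a set of lower generators
-/

noncomputable section

namespace Vale.Agent.P236JW

open Vale.Agent.P236KE
open Vale.Agent.P236JK (ones ite')

/-- the lower generator number `w` in degree `q` -/
def lw (q w d : Nat) : Lw := ⟨(Vale.Agent.P236JD.HH.getD q []).getD w DLL.nil, d⟩
def okQ3 (q : Nat) (a : Bs) (w m d : Nat) : Bool := okM a (lw q w d) m
def okQ2 (q : Nat) (a : Bs) (dl w m : Nat) : Bool :=
  ite' (Nat.beq m (nat_lit 0)) true (force (byte dl w) (okQ3 q a w m))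
def okQ1 (q : Nat) (a : Bs) (dl M w : Nat) : Bool :=
  force (Nat.land (Nat.shiftRight M (Nat.mul (nat_lit 32) w)) (nat_lit 134217727)) (okQ2 q a dl w)
/-- the test for the generators `w < n` with the masks given by the digits of `M` -/
def okQ (q : Nat) (a : Bs) (dl n M : Nat) : Bool :=
  Nat.rec (motive := fun _ => Bool) true (fun w ih => ite' ih (okQ1 q a dl M w) false) n

end Vale.Agent.P236JW

end
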