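import Vale.Agent.P236JI.In3
import Vale.Agent.P236JI.Run
import Vale.Agent.P236JI.Main
import Vale.Agent.P236JW.Twr
import Vale.Agent.P236JB.Base

/-!
# P236JI / Lay : the side conditions and the initial families for the lifted resolution
-/

noncomputable section

namespace Vale.Agent.P236JW

open MvPolynomial Vale.Agent.P236KE Vale.Agent.P236JF Vale.Agent.P236JB
open Vale.Agent.P236K3 (K A po szk po_succ po_lt)
open Vale.Agent.P236JK (ones ite')
open Vale.Agent.P236JL (alt alt_spec coeff_rJ rJ_ne)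
open Vale.Agent.P236JY (rJ hD)
open Vale.Agent.P236KE.S90 (sph)

def lay2 (a : Bs) (w o k : Nat) : Bool :=
  force (Nat.add o k) fun p => and (Nat.beq (byte a.pw p) w) (Nat.beq (byte a.pq p) k)
def lay1 (a : Bs) (w : Nat) : Bool :=
  force (po a.tt a.dm w) fun o => alt ⟨lay2 a w o⟩ (szk a.tt a.dm w)
/-- the check of the tables of the places -/
def layK (a : Bs) (n1 : Nat) : Bool := and (Nat.beq a.nn (po a.tt a.dm n1)) (alt ⟨lay1 a⟩ n1)

theorem po_blk (T D : ℕ) {n p : ℕ} (h : p < po T D n) :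
    ∃ w < n, ∃ k < 3 * ((T - byte D w) / 13) + 1, p = po T D w + k := by
  induction n with
  | zero => exact absurd h (Nat.not_lt_zero _)
  | succ n ih =>
    rw [po_succ] at h
    rcases Nat.lt_or_ge p (po T D n) with h1 | h1
    · obtain ⟨w, h2, h3⟩ := ih h1
      exact ⟨w, by omega, h3⟩
    · exact ⟨n, by omega, p - po T D n, by omega, by omega⟩

theorem lay_of {a : Bs} {n1 : ℕ} (h : layK a n1 = true) :
    a.nn = po a.tt a.dm n1 ∧ Lay a n1 (po a.tt a.dm) := by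
  rw [layK, Bool.and_eq_true, Nat.beq_eq] at h
  have h1 : ∀ w < n1, ∀ k < 3 * ((a.tt - byte a.dm w) / 13) + 1,
      byte a.pw (po a.tt a.dm w + k) = w ∧ byte a.pq (po a.tt a.dm w + k) = k := fun w hw k hk => by
    have h2 : lay1 a w = true := alt_spec (t := ⟨lay1 a⟩) h.2 hw
    rw [lay1, force_eq] at h2
    have h3 : lay2 a w (po a.tt a.dm w) k = true := alt_spec (t := ⟨lay2 a w _⟩) h2 hk
    rw [lay2, force_eq, Bool.and_eq_true, Nat.beq_eq, Nat.beq_eq] at h3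
    exact h3
  refine ⟨h.1, fun p hp => ?_, fun w hw c d hc => ?_⟩
  · obtain ⟨w, h2, k, h3, rfl⟩ := po_blk a.tt a.dm (h.1 ▸ hp)
    rw [(h1 w h2 k h3).1, (h1 w h2 k h3).2]
    exact ⟨h2, rfl⟩
  · have h2 := po_lt a.tt a.dm hw
    exact ⟨by omega, h1 w hw _ (by omega)⟩

/-- the side conditions for a group of columns -/
def sdG (q : Nat) (c : CG) (a : Bs) : Bool :=
  Nat.beq a.n c.n && Nat.beq a.tt 90 && Nat.beq a.dm (sph.d (q + 1)) && Nat.ble 12 a.n &&
    layK a (sph.n (q + 1)) && cG (q + 1) c a.dc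

variable {q : ℕ} {c : CG} {a : Bs}

theorem sdG_spec (h : sdG q c a = true) : a.n = c.n ∧ a.tt = 90 ∧ a.dm = sph.d (q + 1) ∧
    12 ≤ a.n ∧ layK a (sph.n (q + 1)) = true ∧ cG (q + 1) c a.dc = true := by
  simpa only [sdG, Bool.and_eq_true, Nat.beq_eq, Nat.ble_eq, and_assoc] using h

variable [Fact (Nat.Prime 3)]

theorem tabH_rJ (ht : a.tt = 90) (hd : a.dm = sph.d (q + 1))
    (hn : a.nn = po a.tt a.dm (sph.n (q + 1))) (w : sph.G (q + 1)) :
    TabH a (lw q w (byte (sph.d q) w)) (po a.tt a.dm) (n1 := sph.n (q + 1))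
      fun w' => rJ.y q w w' := fun F hF => by
  rw [hn, ht, hd]
  rw [ht] at hF
  exact ⟨fun w' U hU e => coeff_rJ q w w' hF hU e, fun w' m hm => rJ_ne hF hm⟩

/-- **the initial family of a column** -/
theorem init_fam (h : sdG q c a = true) (hT : TabW (q + 1) c a.dc a.up) (w : sph.G (q + 1))
    {i : ℕ} (hi : i < c.n) (b : sph.G (q + 3)) (hb : b.1 = byte c.tb i) :
    ColOk a (c.col a.dc i) ∧ Fam a (c.col a.dc i) (fun _ => True) (byte (sph.d q) w)
      (byte (sph.d q) w) (init a (lw q w (byte (sph.d q) w))) 0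
      (valJ (n := sph.n (q + 1)) (fun w' => rJ.y (q + 1) w' b) (fun w' => rJ.y q w w') 0) := by
  obtain ⟨h1, h2, h3, h4, h5, -⟩ := sdG_spec h
  obtain ⟨h6, h7⟩ := lay_of h5
  have h0 : 0 < a.n := by omega
  have hz : ColOk a (c.col a.dc i) := ⟨h1 ▸ hi, rfl, by omega⟩
  have h8 : Tw1 a (sph.n (q + 1)) := fun w' hw d c' u b' _ s =>
    tw3_gd h0 hz.T (gd_base hT h0 ⟨w', hw⟩) d c' u b' s
  refine ⟨hz, gd_init h0 h7 h8 _, init_rep (l := lw q w (byte (sph.d q) w)) h0 hz.T h7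
    (tabH_rJ h2 h3 h6 w) h8 (fun w' d c' u b' _ => ?_) _⟩
  rw [h3]
  exact (tw3_fam hz ⟨gd_base hT h0 w', base_rep hT h1 h2 w' hi b hb⟩ d c' u b').rep

end Vale.Agent.P236JW

end
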