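import Vale.Agent.P236JI.Ini
import Vale.Agent.P236JI.Rw

/-!
# P236JI / Sp : sums over the nonzero digits of a row
-/

noncomputable section

namespace Vale.Agent.P236JW

open MvPolynomial Vale.Agent.P236K3 Vale.Agent.P236KE Vale.Agent.P236JF Vale.Agent.P236JK
open Vale.Agent.P236JK.Ini (ex0 ex0_eq)

theorem bit_log {x : ℕ} (h : x ≠ 0) : x.testBit x.log2 = true :=
  Nat.testBit_of_two_pow_le_and_two_pow_add_one_gt (Nat.log2_self_le h) Nat.lt_log2_self

theorem xor_log_lt {x : ℕ} (h : x ≠ 0) : x ^^^ 1 <<< x.log2 < 2 ^ x.log2 :=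
  Nat.lt_pow_two_of_testBit _ fun i hi => by
    rw [Nat.testBit_xor, Nat.one_shiftLeft, Nat.testBit_two_pow]
    rcases hi.lt_or_eq with h1 | rfl
    · rw [Nat.testBit_lt_two_pow (Nat.lt_log2_self.trans_le (Nat.pow_le_pow_right (by omega) h1)),
        decide_eq_false h1.ne]
      rfl
    · rw [bit_log h, decide_eq_true rfl]
      rfl

theorem log_lt {x n : ℕ} (h : x ≠ 0) (hx : x < 2 ^ n) : x.log2 < n := (Nat.log2_lt h).2 hx

theorem sub_log {x : ℕ} (h : x ≠ 0) : x - 1 <<< x.log2 = x ^^^ 1 <<< x.log2 := by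
  have h1 := Nat.two_pow_add_eq_or_of_lt (xor_log_lt h) 1
  have h2 : 2 ^ x.log2 * 1 ||| (x ^^^ 1 <<< x.log2) = x := Nat.eq_of_testBit_eq fun i => by
    rw [mul_one, Nat.testBit_or, Nat.testBit_xor, Nat.one_shiftLeft, Nat.testBit_two_pow]
    by_cases h3 : x.log2 = i
    · rw [← h3, bit_log h, decide_eq_true rfl]
      rfl
    · rw [decide_eq_false h3, Bool.false_or, Bool.xor_false]
  rw [Nat.one_shiftLeft] at h1 h2 ⊢
  omega

/-- removal of the highest bit from a sum over the bits -/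
theorem sum_log {M : Type} [AddCommMonoid M] (f : ℕ → M) {x n : ℕ} (h : x ≠ 0) (hx : x < 2 ^ n) :
    ∑ p ∈ Finset.range n, (if x.testBit p then f p else 0) = f x.log2 +
      ∑ p ∈ Finset.range n, if (x ^^^ 1 <<< x.log2).testBit p then f p else 0 := by
  have h1 := Finset.mem_range.2 (log_lt h hx)
  rw [← Finset.add_sum_erase _ _ h1, ← Finset.add_sum_erase _ _ h1, if_pos (bit_log h),
    Nat.testBit_lt_two_pow (xor_log_lt h), if_neg Bool.false_ne_true, zero_add]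
  refine congrArg _ (Finset.sum_congr rfl fun p hp => ?_)
  rw [Nat.testBit_xor, Nat.one_shiftLeft, Nat.testBit_two_pow,
    decide_eq_false (Finset.ne_of_mem_erase hp).symm, Bool.xor_false]

theorem sum_zero_bits {M : Type} [AddCommMonoid M] (f : ℕ → M) (n : ℕ) :
    ∑ p ∈ Finset.range n, (if Nat.testBit 0 p then f p else 0) = 0 := by simp

/-- a digit as a combination of two bits -/
theorem tr_mul (a b p : ℕ) (t : K) : (P236JY.tr ⟨a, b⟩ p : K) * t =
    (if a.testBit p then t else 0) - if (b ^^^ (a &&& b)).testBit p then t else 0 := by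
  rw [P236JY.tr, Nat.testBit_xor, Nat.testBit_and]
  cases a.testBit p <;> cases b.testBit p <;> revert t <;> decide

variable [Fact (Nat.Prime 3)]

/-- **the initial values as a sum over places** -/
theorem valJ_zero_pos {n1 N j : ℕ} {y1 y2 : Fin n1 → (ℕ →₀ ℕ) → A} {F : Q4} {dm : ℕ → ℕ}
    {ps : ℕ → Q4 → ℕ} {t : ℕ → K} {ok : ℕ → Bool} {dec : ℕ → ℕ × Q4}
    (hy : ∀ (w : Fin n1) U, U.1 < 3 → dm w + wt4 U = j → coeff (m4 U) (y1 w (m4 F)) = t (ps w U))
    (hne : ∀ (w : Fin n1) m, coeff m (y1 w (m4 F)) ≠ 0 → ∃ U, m = m4 U ∧ dm w + wt4 U = j)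
    (h1 : ∀ p < N, ok p = true → (dec p).1 < n1 ∧ (dec p).2.1 < 3 ∧
      dm (dec p).1 + wt4 (dec p).2 = j ∧ ps (dec p).1 (dec p).2 = p)
    (h2 : ∀ w < n1, ∀ U : Q4, U.1 < 3 → dm w + wt4 U = j →
      ps w U < N ∧ ok (ps w U) = true ∧ dec (ps w U) = (w, U)) {V : Q4} (hV : V.1 < 3) (E : Q4) :
    valJ y2 y1 0 V E F = ∑ p ∈ Finset.range N,
      if ok p then t p * TJ (ex0 y2 (dec p).1) (dec p).2 V E else 0 := by
  have h3 : ∀ p ∈ (List.range N).filter ok, p < N ∧ ok p = true := fun p hp => by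
    rwa [List.mem_filter, List.mem_range] at hp
  rw [← ex0_eq y2, ← ex0_eq y1, valJ_zero_list _ _ (ml := ((List.range N).filter ok).map dec)
    ((List.nodup_range.filter _).map_on fun p hp p' hp' e => by
      rw [← (h1 p (h3 p hp).1 (h3 p hp).2).2.2.2, e, (h1 p' (h3 p' hp').1 (h3 p' hp').2).2.2.2])
    (fun a ha => by
      obtain ⟨p, hp, rfl⟩ := List.mem_map.1 ha
      exact (h1 p (h3 p hp).1 (h3 p hp).2).1)
    (fun w hw m h4 h5 => by
      rw [ex0, dif_pos hw] at h4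
      obtain ⟨U, rfl, h6⟩ := hne ⟨w, hw⟩ m h4
      obtain ⟨k1, k2, k3⟩ := h2 w hw U (by rwa [m4_0] at h5) h6
      exact ⟨U, List.mem_map.2 ⟨_, List.mem_filter.2 ⟨List.mem_range.2 k1, k2⟩, k3⟩, rfl⟩) hV E,
    List.map_map, ← Finset.sum_filter, ← List.sum_toFinset _ (List.nodup_range.filter _),
    List.toFinset_filter, List.toFinset_range, ex0_eq]
  refine Finset.sum_congr rfl fun p hp => ?_
  rw [Finset.mem_filter, Finset.mem_range] at hp
  obtain ⟨k1, k2, k3, k4⟩ := h1 p hp.1 hp.2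
  have h4 := hy ⟨_, k1⟩ _ k2 k3
  rw [k4] at h4
  rw [← h4, Function.comp_apply, ex0, dif_pos k1]

end Vale.Agent.P236JW

end
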